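import Vale.Agent.P354z.O4
import Vale.Agent.P354w.Exit

set_option maxSynthPendingDepth 3

open Set MeasureTheory Filter Topology

namespace Vale.Agent.P354z

open Vale.Agent.P354w Vale.Agent.P354x PreHyp CoreHyp

variable {K : Coef} {G : P4 → P4 →L[ℝ] P4 →L[ℝ] ℝ} {Psi : P4 → P4} {V U : Set P4}
    {C R : ℝ} {cv cw cu : ℝ → ℝ} {t0 r : ℝ} {f : P3 → ℝ}

/-- near the centre there is a vertical line with bounded velocity -/
theorem exists_good_line (h : CoreHyp K G Psi V U C R cv cw cu t0 r f) {S0 : ℝ}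
    (hsw : ∀ y ∈ U, |K.s1 y| ≤ S0 ∧ |K.s2 y| ≤ S0 ∧ |K.w1 y| ≤ S0 ∧ |K.w2 y| ≤ S0) :
    ∃ x : P3, ‖x‖ < r / 8 ∧ ∃ A : ℝ, 1 ≤ A ∧ ∀ t ∈ Ico t0 (f x), ‖fderiv ℝ Psi (t, x) e1‖ ≤ A := by
  have hpre := h.toPreHyp
  have hr := h.r_pos
  obtain ⟨κ0, hκ0⟩ := exists_Q0 h
  have hae : ∀ᵐ x : P3, En G t0 r f x < ⊤ :=
    ae_lt_top (measurable_En hpre) (lintegral_En hpre)
  have hne : volume (Metric.ball (0 : P3) (r / 8)) ≠ 0 :=
    (Metric.measure_ball_pos volume (0 : P3) (by linarith only [hr])).ne'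
  obtain ⟨x, hxb, hxE⟩ : ∃ x ∈ Metric.ball (0 : P3) (r / 8), En G t0 r f x < ⊤ := by
    by_contra hcon
    push Not at hcon
    apply hne
    refine measure_mono_null (t := {x | ¬ En G t0 r f x < ⊤}) ?_ (ae_iff.1 hae)
    intro x hx
    simp only [mem_ofPred_eq, not_lt]
    exact hcon x hx
  rw [mem_ball_zero_iff] at hxb
  have hxr : x ∈ Metric.ball (0 : P3) r := by rw [mem_ball_zero_iff]; linarith only [hr, hxb]
  rw [← En_eq hxr] at hxE
  set B : ENNReal := ENNReal.ofReal (κ0 * Real.exp (100 * C ^ 5 * (1 + (W0 R cv cw cu).toReal) + 1)) +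
      ENNReal.ofReal (3 * R * Real.exp (100 * C ^ 5 * (1 + (W0 R cv cw cu).toReal) + 1)) *
        ∫⁻ s in Ico t0 (f x), ‖fderiv ℝ G (s, x)‖ₑ ^ 2 with hB
  have hBt : B ≠ ⊤ := ENNReal.add_ne_top.mpr ⟨ENNReal.ofReal_ne_top,
    ENNReal.mul_ne_top ENNReal.ofReal_ne_top hxE.ne⟩
  have hC : 1 ≤ C := by
    have : (t0, x) ∈ V := h.memV x hxr t0 ⟨le_refl _, h.t0f x hxr⟩
    exact (h.pt this).bd.one_le
  refine ⟨x, hxb, max 1 (2 * (C + S0) * B.toReal), le_max_left _ _, fun t ht => ?_⟩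
  have hzV := h.memV x hxr t ht
  have h1 := sup_line hpre hxr (hκ0 x (by linarith only [hr, hxb])) ht
  rw [← hB] at h1
  have h2 : QQ Psi (t, x) ≤ B.toReal :=
    (ENNReal.ofReal_le_iff_le_toReal hBt).1 h1
  have hbp : 0 < (fderiv ℝ Psi (t, x) e1).2.1 := h.pos _ hzV
  have hap : 0 < (fderiv ℝ Psi (t, x) e1).2.2.1 := (h.pt hzV).sq_le.2.1
  unfold QQ at h2
  exact (hpre.line_deriv_norm hsw hzV (M := B.toReal) (by linarith only [h2, hap]) (by linarith only [h2, hbp])).trans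
    (le_max_right _ _)

end Vale.Agent.P354z
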