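import Vale.Agent.P354z.Lp3

set_option maxSynthPendingDepth 3

open Set MeasureTheory Filter Topology

namespace Vale.Agent.P354z

lemma LpF_sqrt {α : Type*} [MeasurableSpace α] {p : ENNReal} {μ : Measure α} (hp : 2 ≤ p)
    {l : α → ℝ} (hl : eLpNorm l (p / 2) μ ≠ ⊤) : LpF p μ (fun v => ‖Real.sqrt |l v|‖ₑ) := by
  have hp0 : p ≠ 0 := by
    intro h
    rw [h] at hp
    norm_num at hp
  by_cases hpt : p = ⊤
  · have e : p / 2 = ⊤ := by rw [hpt]; exact ENNReal.top_div_of_ne_top (by norm_num)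
    rw [e, eLpNorm_exponent_top] at hl
    refine ⟨fun _ => ⟨1 + eLpNormEssSup l μ, ENNReal.add_ne_top.mpr ⟨by norm_num, hl⟩, ?_⟩,
      fun h => absurd hpt h⟩
    have h1 : ∀ᵐ v ∂μ, ‖l v‖ₑ ≤ eLpNormEssSup l μ := ae_le_eLpNormEssSup
    filter_upwards [h1] with v hv
    refine le_trans ?_ (add_le_add_right hv 1)
    have h2 : Real.sqrt |l v| ≤ 1 + |l v| := by
      have h0 := abs_nonneg (l v)
      rw [Real.sqrt_le_left (by linarith)]
      nlinarith
    rw [← ofReal_norm, ← ofReal_norm, Real.norm_eq_abs, Real.norm_eq_abs,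
      abs_of_nonneg (Real.sqrt_nonneg _), ← ENNReal.ofReal_one,
      ← ENNReal.ofReal_add (by norm_num) (abs_nonneg _)]
    exact ENNReal.ofReal_le_ofReal h2
  · have e0 : p / 2 ≠ 0 := by
      rw [ne_eq, ENNReal.div_eq_zero_iff]
      push Not
      exact ⟨hp0, by norm_num⟩
    have et : p / 2 ≠ ⊤ := by
      rw [ne_eq, ENNReal.div_eq_top]
      push Not
      exact ⟨fun _ => by norm_num, fun h => absurd h hpt⟩
    have h1 := (eLpNorm_lt_top_iff_lintegral_rpow_enorm_lt_top e0 et).1 (lt_top_iff_ne_top.2 hl)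
    refine ⟨fun h => absurd h hpt, fun _ => ?_⟩
    have er : (p / 2).toReal = p.toReal / 2 := by
      rw [ENNReal.toReal_div]
      norm_num
    rw [er] at h1
    have e2 : ∀ v, ‖Real.sqrt |l v|‖ₑ ^ p.toReal = ‖l v‖ₑ ^ (p.toReal / 2) := by
      intro v
      rw [← ofReal_norm, ← ofReal_norm, Real.norm_eq_abs, Real.norm_eq_abs,
        abs_of_nonneg (Real.sqrt_nonneg _), Real.sqrt_eq_rpow,
        ← ENNReal.ofReal_rpow_of_nonneg (abs_nonneg _) (by norm_num), ← ENNReal.rpow_mul]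
      congr 1
      ring
    simp only [e2]
    exact h1.ne

end Vale.Agent.P354z
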