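import Vale.Agent.P354z.O5

set_option maxSynthPendingDepth 3

open Set MeasureTheory Filter Topology

namespace Vale.Agent.P354z

open Vale.Agent.P354w Vale.Agent.P354x PreHyp CoreHyp

/-- finiteness of the `L^p` norm, `p = ∞` included -/
def LpF {α : Type*} [MeasurableSpace α] (p : ENNReal) (μ : Measure α) (B : α → ENNReal) : Prop :=
  (p = ⊤ → ∃ c : ENNReal, c ≠ ⊤ ∧ ∀ᵐ v ∂μ, B v ≤ c) ∧ (p ≠ ⊤ → ∫⁻ v, B v ^ p.toReal ∂μ ≠ ⊤)

section
variable {α : Type*} [MeasurableSpace α] {p : ENNReal} {μ : Measure α} {A B : α → ENNReal}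

lemma LpF.mono_ae (h : LpF p μ B) (hAB : ∀ᵐ v ∂μ, A v ≤ B v) : LpF p μ A := by
  constructor
  · intro hp
    obtain ⟨c, hc, hB⟩ := h.1 hp
    refine ⟨c, hc, ?_⟩
    filter_upwards [hB, hAB] with v h1 h2
    exact h2.trans h1
  · intro hp
    refine ne_top_of_le_ne_top (h.2 hp) (lintegral_mono_ae ?_)
    filter_upwards [hAB] with v h2
    exact ENNReal.rpow_le_rpow h2 ENNReal.toReal_nonneg

lemma LpF.mono (h : LpF p μ B) (hAB : ∀ v, A v ≤ B v) : LpF p μ A :=
  h.mono_ae (Eventually.of_forall hAB)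

lemma LpF.mono_meas {ν : Measure α} (h : LpF p μ B) (hν : ν ≤ μ) : LpF p ν B := by
  constructor
  · intro hp
    obtain ⟨c, hc, hB⟩ := h.1 hp
    exact ⟨c, hc, hB.filter_mono (ae_mono hν)⟩
  · intro hp
    exact ne_top_of_le_ne_top (h.2 hp) (lintegral_mono' hν (le_refl _))

lemma LpF.const_mul (h : LpF p μ B) {c : ENNReal} (hc : c ≠ ⊤) :
    LpF p μ (fun v => c * B v) := by
  constructor
  · intro hp
    obtain ⟨b, hb, hB⟩ := h.1 hp
    refine ⟨c * b, ENNReal.mul_ne_top hc hb, ?_⟩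
    filter_upwards [hB] with v h1
    gcongr
  · intro hp
    have e : ∀ v, (c * B v) ^ p.toReal = c ^ p.toReal * B v ^ p.toReal :=
      fun v => ENNReal.mul_rpow_of_nonneg _ _ ENNReal.toReal_nonneg
    simp only [e]
    rw [lintegral_const_mul' _ _ (ENNReal.rpow_ne_top_of_nonneg ENNReal.toReal_nonneg hc)]
    exact ENNReal.mul_ne_top (ENNReal.rpow_ne_top_of_nonneg ENNReal.toReal_nonneg hc) (h.2 hp)

lemma toReal_ge {p : ENNReal} (hp : 2 ≤ p) (ht : p ≠ ⊤) : 2 ≤ p.toReal := by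
  have := ENNReal.toReal_mono ht hp
  simpa using this

lemma LpF.add (hA : LpF p μ A) (hB : LpF p μ B) (hp : 2 ≤ p) (hm : AEMeasurable A μ) :
    LpF p μ (fun v => A v + B v) := by
  constructor
  · intro hpt
    obtain ⟨a, ha, hA'⟩ := hA.1 hpt
    obtain ⟨b, hb, hB'⟩ := hB.1 hpt
    refine ⟨a + b, ENNReal.add_ne_top.mpr ⟨ha, hb⟩, ?_⟩
    filter_upwards [hA', hB'] with v h1 h2
    exact add_le_add h1 h2
  · intro hpt
    have hp1 : 1 ≤ p.toReal := by linarith [toReal_ge hp hpt]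
    have hle := lintegral_mono (μ := μ)
      (fun v => ENNReal.rpow_add_le_mul_rpow_add_rpow (A v) (B v) hp1)
    refine ne_top_of_le_ne_top ?_ hle
    have hc : (2:ENNReal) ^ (p.toReal - 1) ≠ ⊤ :=
      ENNReal.rpow_ne_top_of_nonneg (by linarith) (by norm_num)
    rw [lintegral_const_mul' _ _ hc, lintegral_add_left' (hm.pow_const _)]
    exact ENNReal.mul_ne_top hc (ENNReal.add_ne_top.mpr ⟨hA.2 hpt, hB.2 hpt⟩)

lemma LpF.const (hμ : μ univ ≠ ⊤) {c : ENNReal} (hc : c ≠ ⊤) : LpF p μ (fun _ => c) := by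
  constructor
  · intro _
    exact ⟨c, hc, Eventually.of_forall fun _ => le_refl _⟩
  · intro _
    rw [lintegral_const]
    exact ENNReal.mul_ne_top (ENNReal.rpow_ne_top_of_nonneg ENNReal.toReal_nonneg hc) hμ

lemma LpF_iff {f : α → ℝ} (hp : 2 ≤ p) : LpF p μ (fun v => ‖f v‖ₑ) ↔ eLpNorm f p μ ≠ ⊤ := by
  have hp0 : p ≠ 0 := by
    intro h
    rw [h] at hp
    norm_num at hp
  by_cases hpt : p = ⊤
  · constructor
    · intro h
      obtain ⟨c, hc, hb⟩ := h.1 hpt
      rw [hpt, eLpNorm_exponent_top]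
      exact ne_top_of_le_ne_top hc (eLpNormEssSup_le_of_ae_enorm_bound hb)
    · intro h
      rw [hpt, eLpNorm_exponent_top] at h
      exact ⟨fun _ => ⟨_, h, ae_le_eLpNormEssSup⟩, fun h2 => absurd hpt h2⟩
  · have h1 := eLpNorm_lt_top_iff_lintegral_rpow_enorm_lt_top (f := f) (μ := μ) hp0 hpt
    constructor
    · intro h
      exact (h1.2 (lt_top_iff_ne_top.2 (h.2 hpt))).ne
    · intro h
      exact ⟨fun h2 => absurd h2 hpt, fun _ => (h1.1 (lt_top_iff_ne_top.2 h)).ne⟩

end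

variable {L : ℝ → P3 → ENNReal} {ε : ℝ → ℝ}

/-- averages over balls of variable radius -/
theorem avg_aeP {p : ENNReal} (hp : 2 ≤ p) (hL : Measurable (fun q : ℝ × P3 => L q.1 q.2))
    (htop : p = ⊤ → ∃ c : ENNReal, c ≠ ⊤ ∧ ∀ᵐ v : ℝ, ∀ᵐ y : P3, L v y ≤ c)
    (hfin : p ≠ ⊤ → ∫⁻ v, ∫⁻ y, L v y ^ p.toReal ≠ ⊤) (hε : Measurable ε)
    (hpos : ∀ v, 0 < ε v) :
    ∀ᵐ y0 : P3, LpF p volume (fun v => ENNReal.ofReal ((ε v)⁻¹ ^ 3) *
      ∫⁻ y in Metric.ball y0 (ε v), L v y) := by
  by_cases hpt : p = ⊤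
  · obtain ⟨c, hc, hcb⟩ := htop hpt
    refine Eventually.of_forall fun y0 => ⟨fun _ => ⟨8 * c, ENNReal.mul_ne_top (by norm_num) hc,
      ?_⟩, fun h => absurd hpt h⟩
    filter_upwards [hcb] with v hv
    have h1 : ∫⁻ y in Metric.ball y0 (ε v), L v y ≤ c * ENNReal.ofReal (8 * ε v ^ 3) := by
      calc ∫⁻ y in Metric.ball y0 (ε v), L v y ≤ ∫⁻ _ in Metric.ball y0 (ε v), c :=
            lintegral_mono_ae (ae_restrict_of_ae hv)
        _ = _ := by rw [setLIntegral_const, vol_ball y0 (hpos v).le]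
    calc ENNReal.ofReal ((ε v)⁻¹ ^ 3) * ∫⁻ y in Metric.ball y0 (ε v), L v y
        ≤ ENNReal.ofReal ((ε v)⁻¹ ^ 3) * (c * ENNReal.ofReal (8 * ε v ^ 3)) := by gcongr
      _ = (ENNReal.ofReal ((ε v)⁻¹ ^ 3) * ENNReal.ofReal (8 * ε v ^ 3)) * c := by ring
      _ = 8 * c := by
        have hv' := (hpos v).ne'
        have := hpos v
        rw [← ENNReal.ofReal_mul (by positivity)]
        congr 1
        have e2 : (ε v)⁻¹ ^ 3 * (8 * ε v ^ 3) = 8 := by field_simp
        rw [e2]; norm_num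
  · set q := p.toReal with hq
    have hq2 : 2 ≤ q := toReal_ge hp hpt
    set L' : ℝ → P3 → ENNReal := fun v y => L v y ^ (q / 2) with hL'
    have hL'm : Measurable (fun r : ℝ × P3 => L' r.1 r.2) := hL.pow_const _
    have hsq : ∀ v y, L' v y ^ 2 = L v y ^ q := by
      intro v y
      rw [hL', ← ENNReal.rpow_natCast, ← ENNReal.rpow_mul]
      congr 1
      push_cast
      ring
    have hm := measurable_FF' hL'm hε
    have h2 : Measurable (fun r : P3 × ℝ => ∫⁻ y, FF L' ε r.1 r.2 y) := hm.lintegral_prod_right'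
    have hmeas : Measurable (fun y0 => ∫⁻ v, ∫⁻ y, FF L' ε y0 v y) := h2.lintegral_prod_right'
    have hne : ∫⁻ y0, ∫⁻ v, ∫⁻ y, FF L' ε y0 v y ≠ ⊤ := by
      rw [FF_int hL'm hε hpos]
      simp only [hsq]
      exact ENNReal.mul_ne_top (by norm_num) (hfin hpt)
    filter_upwards [ae_lt_top hmeas hne] with y0 hy0
    refine ⟨fun h => absurd h hpt, fun _ => ?_⟩
    have h8 : (8:ENNReal) ^ q ≠ ⊤ := ENNReal.rpow_ne_top_of_nonneg (by linarith) (by norm_num)
    have hbd : ∀ v, (ENNReal.ofReal ((ε v)⁻¹ ^ 3) * ∫⁻ y in Metric.ball y0 (ε v), L v y) ^ q ≤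
        8 ^ q * ∫⁻ y, FF L' ε y0 v y := by
      intro v
      have hv := hpos v
      have hB : MeasurableSet (Metric.ball y0 (ε v)) := Metric.isOpen_ball.measurableSet
      have hLv : Measurable (L v) := hL.comp measurable_prodMk_left
      have hconj : q.HolderConjugate (q / (q - 1)) :=
        Real.HolderConjugate.conjExponent (by linarith)
      have h1 := ENNReal.lintegral_mul_le_Lp_mul_Lq (volume.restrict (Metric.ball y0 (ε v)))
        hconj (f := L v) (g := fun _ => (1 : ENNReal)) hLv.aemeasurable aemeasurable_const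
      simp only [Pi.mul_apply, mul_one, ENNReal.one_rpow, lintegral_const,
        Measure.restrict_apply MeasurableSet.univ, univ_inter, one_mul] at h1
      rw [vol_ball y0 hv.le] at h1
      set I := ∫⁻ y in Metric.ball y0 (ε v), L v y ^ q with hI
      have e3 : ∫⁻ y, FF L' ε y0 v y = ENNReal.ofReal (8 * (ε v)⁻¹ ^ 3) * I := by
        simp only [FF, Es_2, hsq]
        rw [lintegral_const_mul' _ _ ENNReal.ofReal_ne_top, hI, ← lintegral_indicator hB]
        congr 1
        apply lintegral_congr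
        intro y
        by_cases hy : y ∈ Metric.ball y0 (ε v)
        · rw [indicator_of_mem hy, indicator_of_mem hy, one_mul]
        · rw [indicator_of_notMem hy, indicator_of_notMem hy, zero_mul]
      rw [e3]
      have hq0 : (0:ℝ) ≤ q := by linarith
      have hqn : q ≠ 0 := by linarith
      set a := ENNReal.ofReal ((ε v)⁻¹ ^ 3) with ha
      set b := ENNReal.ofReal (8 * ε v ^ 3) with hb
      have hab : a * b = 8 := by
        rw [ha, hb, ← ENNReal.ofReal_mul (by positivity)]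
        have hv' := hv.ne'
        have e2 : (ε v)⁻¹ ^ 3 * (8 * ε v ^ 3) = 8 := by field_simp
        rw [e2]; norm_num
      have e8 : ENNReal.ofReal (8 * (ε v)⁻¹ ^ 3) = 8 * a := by
        rw [ha, ENNReal.ofReal_mul (by norm_num)]
        norm_num
      rw [e8]
      have hexp : 1 / (q / (q - 1)) * q = q - 1 := by
        have : q - 1 ≠ 0 := by
          have : 0 < q - 1 := by linarith
          exact this.ne'
        field_simp
      calc (a * ∫⁻ y in Metric.ball y0 (ε v), L v y) ^ q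
          ≤ (a * (I ^ (1 / q) * b ^ (1 / (q / (q - 1))))) ^ q := by gcongr
        _ = a ^ q * (I * b ^ (q - 1)) := by
          rw [ENNReal.mul_rpow_of_nonneg _ _ hq0, ENNReal.mul_rpow_of_nonneg _ _ hq0,
            ← ENNReal.rpow_mul, ← ENNReal.rpow_mul, hexp, one_div_mul_cancel hqn,
            ENNReal.rpow_one]
        _ = a * (a ^ (q - 1) * b ^ (q - 1)) * I := by
          have : a ^ q = a * a ^ (q - 1) := by
            have h5 := ENNReal.rpow_add_of_nonneg (x := a) 1 (q - 1) (by norm_num) (by linarith)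
            rw [ENNReal.rpow_one] at h5
            rw [← h5]
            congr 1
            ring
          rw [this]; ring
        _ = a * 8 ^ (q - 1) * I := by
          rw [← ENNReal.mul_rpow_of_nonneg _ _ (by linarith : (0:ℝ) ≤ q - 1), hab]
        _ ≤ 8 * a * 8 ^ q * I := by
          have h8' : (8:ENNReal) ^ (q - 1) ≤ 8 * 8 ^ q := by
            calc (8:ENNReal) ^ (q - 1) ≤ 8 ^ q :=
                  ENNReal.rpow_le_rpow_of_exponent_le (by norm_num) (by linarith)
              _ = 1 * 8 ^ q := (one_mul _).symm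
              _ ≤ 8 * 8 ^ q := by gcongr; norm_num
          calc a * 8 ^ (q - 1) * I ≤ a * (8 * 8 ^ q) * I := by gcongr
            _ = _ := by ring
        _ = _ := by ring
    refine ne_top_of_le_ne_top ?_ (lintegral_mono hbd)
    rw [lintegral_const_mul' _ _ h8]
    exact ENNReal.mul_ne_top h8 hy0.ne

end Vale.Agent.P354z
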