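import Vale.Agent.P354z.Lp1

set_option maxSynthPendingDepth 3

open Set MeasureTheory Filter Topology

namespace Vale.Agent.P354z

open Vale.Agent.P354w Vale.Agent.P354x PreHyp CoreHyp

variable {K : Coef} {G : P4 → P4 →L[ℝ] P4 →L[ℝ] ℝ} {Psi : P4 → P4} {V U : Set P4}
    {C R : ℝ} {cv cw cu : ℝ → ℝ} {t0 r : ℝ} {f : P3 → ℝ}

/-- essential boundedness on the slices -/
lemma Lh_top (h : PreHyp K G Psi V U C R cv cw cu t0 r f) {c : ENNReal}
    (hc : ∀ᵐ z ∂(volume.restrict (DD t0 r f)), ‖fderiv ℝ G z‖ₑ ≤ c) :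
    ∀ᵐ v : ℝ, ∀ᵐ y : P3, Lh G Psi V t0 r f (ins v y) ≤ c := by
  set A : Set P4 := DD t0 r f ∩ {z | c < ‖fderiv ℝ G z‖ₑ} with hA
  have hAm : MeasurableSet A := h.measDD.inter
    (measurableSet_lt measurable_const (measurable_fderiv ℝ G).enorm)
  have hA0 : volume A = 0 := by
    rw [ae_restrict_iff' h.measDD] at hc
    rw [measure_eq_zero_iff_ae_notMem]
    filter_upwards [hc] with z hz hzA
    exact absurd (hz hzA.1) (not_le.mpr hzA.2)
  have e := lintegral_tr h (fun _ => (1:ENNReal)) hAm inter_subset_left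
  simp only [mul_one, lintegral_const, Measure.restrict_apply MeasurableSet.univ, univ_inter,
    one_mul] at e
  have himg0 : volume (Psi '' A) = 0 := by
    rw [e, Measure.restrict_eq_zero.mpr hA0, lintegral_zero_measure]
  set Nn : Set P4 := {x | c < Lh G Psi V t0 r f x} with hNn
  have hNm : MeasurableSet Nn := measurableSet_lt measurable_const (measurable_Lh h)
  have hN0 : volume Nn = 0 := by
    refine measure_mono_null ?_ himg0
    intro x hx
    have hx' : c < Lh G Psi V t0 r f x := hx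
    by_cases hxi : x ∈ Psi '' DD t0 r f
    · obtain ⟨z, hz, rfl⟩ := hxi
      rw [Lh, indicator_of_mem (mem_image_of_mem _ hz), h.Phi_left (h.DD_sub hz)] at hx'
      exact ⟨z, ⟨hz, hx'⟩, rfl⟩
    · rw [Lh, indicator_of_notMem hxi] at hx'
      exact absurd hx' (not_lt.mpr bot_le)
  have h1 : ∫⁻ v : ℝ, ∫⁻ y : P3, Nn.indicator 1 (ins v y) = 0 := by
    rw [← lintegral_ins (measurable_one.indicator hNm), lintegral_indicator_one hNm, hN0]
  have hm : Measurable (fun q : ℝ × P3 => Nn.indicator (1 : P4 → ENNReal) (ins q.1 q.2)) :=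
    (measurable_one.indicator hNm).comp measurable_ins
  have h2 : ∀ᵐ v : ℝ, ∫⁻ y : P3, Nn.indicator (1 : P4 → ENNReal) (ins v y) = 0 := by
    have := (lintegral_eq_zero_iff (hm.lintegral_prod_right')).mp h1
    exact this
  filter_upwards [h2] with v hv
  have hmv : Measurable (fun y : P3 => Nn.indicator (1 : P4 → ENNReal) (ins v y)) :=
    hm.comp measurable_prodMk_left
  have h3 := (lintegral_eq_zero_iff hmv).mp hv
  filter_upwards [h3] with y hy
  by_contra hcon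
  push Not at hcon
  have : ins v y ∈ Nn := hcon
  simp only [Pi.zero_apply] at hy
  rw [indicator_of_mem this] at hy
  exact absurd hy (by simp)

/-- integrability of powers on the slices -/
lemma Lh_pow (h : PreHyp K G Psi V U C R cv cw cu t0 r f) {q : ℝ} (hq : 2 ≤ q)
    (hfin : ∫⁻ z in DD t0 r f, ‖fderiv ℝ G z‖ₑ ^ q ≠ ⊤) :
    ∫⁻ v : ℝ, ∫⁻ y : P3, Lh G Psi V t0 r f (ins v y) ^ q ≠ ⊤ := by
  have hm : MeasurableSet (Psi '' DD t0 r f) := (isOpen_imDD h).measurableSet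
  rw [← lintegral_ins ((measurable_Lh h).pow_const q)]
  have e : (fun y => (Lh G Psi V t0 r f y) ^ q) =
      (Psi '' DD t0 r f).indicator (fun y => ‖fderiv ℝ G (Phi Psi V y)‖ₑ ^ q) := by
    ext y
    by_cases hy : y ∈ Psi '' DD t0 r f
    · rw [Lh, indicator_of_mem hy, indicator_of_mem hy]
    · rw [Lh, indicator_of_notMem hy, indicator_of_notMem hy, ENNReal.zero_rpow_of_pos
        (by linarith)]
  rw [e, lintegral_indicator hm,
    lintegral_tr h (fun z => ‖fderiv ℝ G z‖ₑ ^ q) h.measDD Subset.rfl]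
  have h1 : ∫⁻ z in DD t0 r f, ENNReal.ofReal |(fderiv ℝ Psi z).det| * ‖fderiv ℝ G z‖ₑ ^ q ≤
      ∫⁻ z in DD t0 r f, ENNReal.ofReal C * ‖fderiv ℝ G z‖ₑ ^ q := by
    apply setLIntegral_mono' h.measDD
    intro z hz
    gcongr
    exact h.det_hi z (h.DD_sub hz)
  refine ne_top_of_le_ne_top ?_ h1
  rw [lintegral_const_mul' _ _ ENNReal.ofReal_ne_top]
  exact ENNReal.mul_ne_top ENNReal.ofReal_ne_top hfin

/-! ### Radii -/

/-- the radius of the balls in the slice `v` -/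
noncomputable def rl (l : ℝ → ℝ) (n : ℕ) (v : ℝ) : ℝ := ((n : ℝ) + 1)⁻¹ * (1 + |l v|)⁻¹

lemma rl_pos (l : ℝ → ℝ) (n : ℕ) (v : ℝ) : 0 < rl l n v := by
  unfold rl
  have := abs_nonneg (l v)
  positivity

lemma rl_le (l : ℝ → ℝ) (n : ℕ) (v : ℝ) : rl l n v ≤ ((n : ℝ) + 1)⁻¹ := by
  unfold rl
  have h2 : (1 + |l v|)⁻¹ ≤ 1 := inv_le_one_of_one_le₀ (by linarith [abs_nonneg (l v)])
  have h3 : (0:ℝ) < ((n : ℝ) + 1)⁻¹ := by positivity
  nlinarith

lemma rl_le_one (l : ℝ → ℝ) (n : ℕ) (v : ℝ) : rl l n v ≤ 1 := by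
  refine (rl_le l n v).trans (inv_le_one_of_one_le₀ ?_)
  have : (0:ℝ) ≤ n := Nat.cast_nonneg n
  linarith

lemma inv_rl (l : ℝ → ℝ) (n : ℕ) (v : ℝ) : (rl l n v)⁻¹ = ((n : ℝ) + 1) * (1 + |l v|) := by
  unfold rl
  rw [mul_inv, inv_inv, inv_inv]

lemma l_rl (l : ℝ → ℝ) (n : ℕ) (v : ℝ) : |l v| * rl l n v ≤ ((n : ℝ) + 1)⁻¹ := by
  unfold rl
  have h0 := abs_nonneg (l v)
  have h1 : |l v| * (1 + |l v|)⁻¹ ≤ 1 := by
    rw [← div_eq_mul_inv, div_le_one (by linarith)]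
    linarith
  have h3 : (0:ℝ) < ((n : ℝ) + 1)⁻¹ := by positivity
  calc |l v| * (((n : ℝ) + 1)⁻¹ * (1 + |l v|)⁻¹) = ((n : ℝ) + 1)⁻¹ * (|l v| * (1 + |l v|)⁻¹) := by
        ring
    _ ≤ ((n : ℝ) + 1)⁻¹ * 1 := by gcongr
    _ = _ := mul_one _

lemma measurable_rl {l : ℝ → ℝ} (h : Measurable l) (n : ℕ) : Measurable (rl l n) := by
  unfold rl
  have : Measurable fun v => |l v| := h.abs
  fun_prop

/-- the averaged `|dG|` near `y0` in the slice `v` -/
noncomputable def AvP (G : P4 → P4 →L[ℝ] P4 →L[ℝ] ℝ) (Psi : P4 → P4) (V : Set P4) (t0 r : ℝ)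
    (f : P3 → ℝ) (l : ℝ → ℝ) (n : ℕ) (y0 : P3) (v : ℝ) : ENNReal :=
  ENNReal.ofReal ((rl l n v)⁻¹ ^ 3) *
    ∫⁻ y in Metric.ball y0 (rl l n v), Lh G Psi V t0 r f (ins v y)

lemma avP_ae (h : PreHyp K G Psi V U C R cv cw cu t0 r f) {p : ENNReal} (hp : 2 ≤ p)
    (hG : LpF p (volume.restrict (DD t0 r f)) (fun z => ‖fderiv ℝ G z‖ₑ)) {l : ℝ → ℝ}
    (hl : Measurable l) (n : ℕ) :
    ∀ᵐ y0 : P3, LpF p volume (AvP G Psi V t0 r f l n y0) := by
  refine avg_aeP hp (L := fun v y => Lh G Psi V t0 r f (ins v y)) (ε := rl l n)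
    ((measurable_Lh h).comp measurable_ins) ?_ ?_ (measurable_rl hl n) (rl_pos l n)
  · intro ht
    obtain ⟨c, hc, hcb⟩ := hG.1 ht
    exact ⟨c, hc, Lh_top h hcb⟩
  · intro ht
    exact Lh_pow h (toReal_ge hp ht) (hG.2 ht)

/-- **The core estimate with exponent `p`.** -/
theorem core_YP (h : CoreHyp K G Psi V U C R cv cw cu t0 r f)
    (hcv : ∫⁻ v in Ico (-(2 * R)) 0, ENNReal.ofReal (cv v) ≠ ⊤)
    (hcw : ∫⁻ v in Ico (-(2 * R)) 0, ENNReal.ofReal (cw v) ≠ ⊤)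
    (hcu' : ∫⁻ u in Icc (-(2 * R)) (2 * R), ENNReal.ofReal (cu u) ≠ ⊤)
    (hcu : ∀ u, cu u ≤ C) {p : ENNReal} (hp : 2 ≤ p)
    (hG : LpF p (volume.restrict (DD t0 r f)) (fun z => ‖fderiv ℝ G z‖ₑ)) {l : ℝ → ℝ}
    (hlm : Measurable l) {κ v0 : ℝ} (hκ : 1 ≤ κ) (hv0 : v0 < 0)
    (hl : LpF p (volume.restrict (Ico v0 0)) (fun v => ‖l v‖ₑ)) {Y : Set P3}
    (hYm : MeasurableSet Y) (hvlo : ∀ x : P3, ‖x‖ ≤ r / 2 → (Psi (t0, x)).2.1 < v0)
    (hY : ∀ y ∈ Y, ∀ v ∈ Ico v0 0, ∃ z ∈ DD t0 r f, Psi z = ins v y ∧ ‖z.2‖ ≤ r / 4 ∧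
      QQ Psi z ≤ κ) :
    ∀ᵐ y0 : P3, y0 ∈ Y →
      ∀ m ρ : ℝ, 0 < m → 0 < ρ → ∃ B : ℝ → ENNReal, LpF p (volume.restrict (Ico v0 0)) B ∧
        ∀ v ∈ Ico v0 0, ∀ (j : Fin 3) (σ γ : ℝ), |σ| = 1 → 0 ≤ γ →
          (∀ y : P3, ‖y - y0‖ < ρ → |l v| * ‖y - y0‖ < ρ → ins v y ∈ Psi '' DD t0 r f →
            |fderiv ℝ K.g11 (ins v y) (e4 K (ins v y))| ≤ m * γ ∧
            |fderiv ℝ K.g12 (ins v y) (e4 K (ins v y))| ≤ m * γ ∧
            |fderiv ℝ K.g22 (ins v y) (e4 K (ins v y))| ≤ m * γ ∧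
            γ ≤ σ * D3 K j (ins v y)) → ENNReal.ofReal γ ≤ B v := by
  obtain ⟨D, hD, hest⟩ := local_est3 h hcv hcw hcu' hcu hκ
  filter_upwards [density hYm, ae_all_iff.mpr (avP_ae h.toPreHyp hp hG hlm)] with y0 hdens0
    havg hy0
  have hdens := hdens0 hy0
  intro m ρ hm hρ
  set δ : ℝ := (8192 * (1 + D * m))⁻¹ with hδ
  have hδ0 : 0 < δ := by rw [hδ]; positivity
  obtain ⟨ρ0, hρ0, hdn⟩ := hdens δ hδ0
  obtain ⟨n, hn⟩ := exists_nat_one_div_lt (lt_min hρ0 hρ)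
  rw [one_div, lt_min_iff] at hn
  refine ⟨fun v => ENNReal.ofReal (1024 * D) * (ENNReal.ofReal (16 * (rl l n v)⁻¹) +
    AvP G Psi V t0 r f l n y0 v), ?_, ?_⟩
  · apply LpF.const_mul _ ENNReal.ofReal_ne_top
    have hm1 : Measurable (fun v => ENNReal.ofReal (16 * (rl l n v)⁻¹)) :=
      ((measurable_rl hlm n).inv.const_mul 16).ennreal_ofReal
    refine LpF.add ?_ ((havg n).mono_meas Measure.restrict_le_self) hp hm1.aemeasurable
    have hvol : (volume.restrict (Ico v0 0)) univ ≠ ⊤ := by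
      rw [Measure.restrict_apply MeasurableSet.univ, univ_inter, Real.volume_Ico]
      exact ENNReal.ofReal_ne_top
    have h1 : LpF p (volume.restrict (Ico v0 0)) (fun v => (1:ENNReal) + ‖l v‖ₑ) :=
      LpF.add (LpF.const hvol (by norm_num)) hl hp aemeasurable_const
    refine (h1.const_mul (ENNReal.ofReal_ne_top (r := 16 * ((n:ℝ) + 1)))).mono fun v => ?_
    rw [inv_rl, ← mul_assoc, ENNReal.ofReal_mul (by positivity),
      ENNReal.ofReal_add (by norm_num) (abs_nonneg _), ENNReal.ofReal_one, ← Real.norm_eq_abs,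
      ofReal_norm]
  · intro v hv j σ γ hσ hγ hball
    have hr0 := rl_pos l n v
    have hr1 := rl_le l n v
    have hr2 := rl_le_one l n v
    have hr3 := l_rl l n v
    have hrr : 2 * (rl l n v / 2) = rl l n v := by ring
    have h1 := hest j v y0 (rl l n v / 2) σ γ (m * γ) Y hv.2
      (fun x hx => lt_of_lt_of_le (hvlo x hx) hv.1) (by positivity) (by linarith) hσ hγ
      (by positivity) hYm (fun y hy => hY y hy v hv)
      (by
        intro y hy hyi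
        rw [hrr, Metric.mem_ball, dist_eq_norm] at hy
        apply hball y (by linarith [hn.2]) _ hyi
        calc |l v| * ‖y - y0‖ ≤ |l v| * rl l n v := by gcongr
          _ < ρ := by linarith [hn.2])
    rw [hrr, vol_ball y0 hr0.le] at h1
    refine absorb hγ hD hm hr0 hδ h1 ?_ ?_ (le_refl _)
    · have e1 : ENNReal.ofReal (rl l n v ^ 3 / 512) = volume (Metric.ball y0 (rl l n v / 2 / 8)) := by
        rw [vol_ball y0 (by positivity)]
        congr 1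
        ring
      rw [e1, ← measure_inter_add_diff (Metric.ball y0 (rl l n v / 2 / 8)) hYm]
      gcongr
      refine le_trans (measure_mono ?_) (hdn _ hr0 (by linarith [hn.1]))
      apply diff_subset_diff_left
      apply Metric.ball_subset_ball
      linarith
    · exact hdn _ hr0 (by linarith [hn.1])

end Vale.Agent.P354z
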