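import Vale.Agent.P354z.Lp2

set_option maxSynthPendingDepth 3

open Set MeasureTheory Filter Topology

namespace Vale.Agent.P354z

open Vale.Agent.P354w Vale.Agent.P354x PreHyp CoreHyp

variable {K : Coef} {G : P4 → P4 →L[ℝ] P4 →L[ℝ] ℝ} {Psi : P4 → P4} {V U : Set P4}
    {C R : ℝ} {cv cw cu : ℝ → ℝ} {t0 r : ℝ} {f : P3 → ℝ}

/-- For almost every generator of an open set of the front the metric derivatives which are
comparable to a constant on balls of radius `1/l` are in `L^p`. -/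
theorem open_coreP (h : CoreHyp K G Psi V U C R cv cw cu t0 r f) (hw : ∀ y ∈ U, PtW K y C)
    (hcv : ∫⁻ v in Ico (-(2 * R)) 0, ENNReal.ofReal (cv v) ≠ ⊤)
    (hcw : ∫⁻ v in Ico (-(2 * R)) 0, ENNReal.ofReal (cw v) ≠ ⊤)
    (hcu' : ∫⁻ u in Icc (-(2 * R)) (2 * R), ENNReal.ofReal (cu u) ≠ ⊤)
    (hcu : ∀ u, cu u ≤ C) {p : ENNReal} (hp : 2 ≤ p)
    (hG : LpF p (volume.restrict (DD t0 r f)) (fun z => ‖fderiv ℝ G z‖ₑ)) {l : ℝ → ℝ}
    (hlm : Measurable l) {va : ℝ} (hva : va < 0)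
    (hl : LpF p (volume.restrict (Ico va 0)) (fun v => ‖l v‖ₑ)) {O : Set P3} (hO : IsOpen O)
    {v0 : ℝ} (hv0 : v0 < 0)
    (hin : ∀ y ∈ O, ∀ v ∈ Ico v0 0, ∃ z ∈ DD t0 r f, Psi z = ins v y ∧ ‖z.2‖ ≤ r / 4) :
    ∃ v1 ∈ Ico v0 0, va ≤ v1 ∧ ∀ᵐ y0 : P3, y0 ∈ O →
      ∀ m ρ : ℝ, 0 < m → 0 < ρ → ∃ B : ℝ → ENNReal, LpF p (volume.restrict (Ico v1 0)) B ∧
        ∀ v ∈ Ico v1 0, ∀ (j : Fin 3) (σ γ : ℝ), |σ| = 1 → 0 ≤ γ →
          (∀ y : P3, ‖y - y0‖ < ρ → |l v| * ‖y - y0‖ < ρ → ins v y ∈ Psi '' DD t0 r f →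
            |fderiv ℝ K.g11 (ins v y) (e4 K (ins v y))| ≤ m * γ ∧
            |fderiv ℝ K.g12 (ins v y) (e4 K (ins v y))| ≤ m * γ ∧
            |fderiv ℝ K.g22 (ins v y) (e4 K (ins v y))| ≤ m * γ ∧
            γ ≤ σ * D3 K j (ins v y)) → ENNReal.ofReal γ ≤ B v := by
  have hpre := h.toPreHyp
  obtain ⟨vlo, hvlo0, _, hvlo⟩ := exists_vlo h
  set v1 : ℝ := max (max v0 va) (vlo / 2) with hv1
  have hv10 : v1 < 0 := max_lt (max_lt hv0 hva) (by linarith only [hvlo0])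
  have hv01 : v0 ≤ v1 := (le_max_left _ _).trans (le_max_left _ _)
  have hva1 : va ≤ v1 := (le_max_right _ _).trans (le_max_left _ _)
  have hvlo1 : ∀ x : P3, ‖x‖ ≤ r / 2 → (Psi (t0, x)).2.1 < v1 := by
    intro x hx
    have h1 := hvlo x hx
    have h2 : vlo / 2 ≤ v1 := le_max_right _ _
    linarith only [hv10, h1, h2]
  have hin1 : ∀ y ∈ O, ∀ v ∈ Ico v1 0, ∃ z ∈ DD t0 r f, Psi z = ins v y ∧ ‖z.2‖ ≤ r / 4 :=
    fun y hy v hv => hin y hy v ⟨hv01.trans hv.1, hv.2⟩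
  have himg : ∀ v ∈ Ico v1 0, ∀ y ∈ O, ins v y ∈ Psi '' DD t0 r f := by
    intro v hv y hy
    obtain ⟨z, hz, hzy, _⟩ := hin1 y hy v hv
    exact ⟨z, hz, hzy⟩
  refine ⟨v1, ⟨hv01, hv10⟩, hva1, ?_⟩
  have hY : ∀ n : ℕ, ∀ y ∈ Yk Psi V O v1 ((n:ℝ) + 1), ∀ v ∈ Ico v1 0, ∃ z ∈ DD t0 r f,
      Psi z = ins v y ∧ ‖z.2‖ ≤ r / 4 ∧ QQ Psi z ≤ (n:ℝ) + 1 := by
    intro n y hy v hv
    obtain ⟨z, hz, hzy, hzn⟩ := hin1 y hy.1 v hv
    have hzP : Phi Psi V (ins v y) = z := by rw [← hzy]; exact h.Phi_left (h.DD_sub hz)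
    have := hy.2 v hv
    rw [hzP] at this
    exact ⟨z, hz, hzy, hzn, this⟩
  have hl1 : LpF p (volume.restrict (Ico v1 0)) (fun v => ‖l v‖ₑ) :=
    hl.mono_meas (Measure.restrict_mono (Ico_subset_Ico_left hva1) le_rfl)
  have hcore := fun n : ℕ => core_YP h hcv hcw hcu' hcu hp hG hlm (κ := (n:ℝ) + 1) (v0 := v1)
    (by have : (0:ℝ) ≤ n := Nat.cast_nonneg n
        linarith only []) hv10 hl1 (Y := Yk Psi V O v1 ((n:ℝ) + 1)) (meas_Yk hpre hO himg _) hvlo1 (hY n)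
  filter_upwards [ae_bdd h hw hcu hO hv10 hvlo1 hin1, ae_all_iff.mpr hcore] with y0 h1 h2 hy0
  obtain ⟨n, hn⟩ := h1 hy0
  exact h2 n ⟨hy0, fun v hv => (hn v hv).trans (by linarith only [])⟩

/-- For almost every generator of an open set of the front the derivative of the metric is
in `L^p`. -/
theorem openP (h : CoreHyp K G Psi V U C R cv cw cu t0 r f) (hw : ∀ y ∈ U, PtW K y C)
    (hcv : ∫⁻ v in Ico (-(2 * R)) 0, ENNReal.ofReal (cv v) ≠ ⊤)
    (hcw : ∫⁻ v in Ico (-(2 * R)) 0, ENNReal.ofReal (cw v) ≠ ⊤)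
    (hcu' : ∫⁻ u in Icc (-(2 * R)) (2 * R), ENNReal.ofReal (cu u) ≠ ⊤)
    (hcu : ∀ u, cu u ≤ C) {p : ENNReal} (hp : 2 ≤ p)
    (hG : LpF p (volume.restrict (DD t0 r f)) (fun z => ‖fderiv ℝ G z‖ₑ)) {l : ℝ → ℝ}
    (hlm : Measurable l) {va : ℝ} (hva : va < 0)
    (hl : LpF p (volume.restrict (Ico va 0)) (fun v => ‖l v‖ₑ)) {P ρ1 : ℝ} (hP : 0 ≤ P)
    (hρ1 : 0 < ρ1)
    (hosc : ∀ v ∈ Ico va 0, ∀ y y', ins v y ∈ U → ins v y' ∈ U → ‖y - y'‖ < ρ1 →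
      |l v| * ‖y - y'‖ < ρ1 →
      |fderiv ℝ K.g11 (ins v y) (e4 K (ins v y)) - fderiv ℝ K.g11 (ins v y') (e4 K (ins v y'))| ≤
        chi4 K (ins v y') / 56 + P * (1 + |l v|) ∧
      |fderiv ℝ K.g12 (ins v y) (e4 K (ins v y)) - fderiv ℝ K.g12 (ins v y') (e4 K (ins v y'))| ≤
        chi4 K (ins v y') / 56 + P * (1 + |l v|) ∧
      |fderiv ℝ K.g22 (ins v y) (e4 K (ins v y)) - fderiv ℝ K.g22 (ins v y') (e4 K (ins v y'))| ≤
        chi4 K (ins v y') / 56 + P * (1 + |l v|)) {O : Set P3} (hO : IsOpen O) {v0 : ℝ}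
    (hv0 : v0 < 0)
    (hin : ∀ y ∈ O, ∀ v ∈ Ico v0 0, ∃ z ∈ DD t0 r f, Psi z = ins v y ∧ ‖z.2‖ ≤ r / 4) :
    ∃ v1 ∈ Ico v0 0, ∀ᵐ y0 : P3, y0 ∈ O →
      LpF p (volume.restrict (Ico v1 0)) (fun v => ENNReal.ofReal (chi4 K (ins v y0))) := by
  obtain ⟨v1, hv1, hva1, hcore⟩ := open_coreP h hw hcv hcw hcu' hcu hp hG hlm hva hl hO hv0 hin
  refine ⟨v1, hv1, ?_⟩
  filter_upwards [hcore] with y0 hc hy0
  have hB := hc hy0
  have himg : ∀ v ∈ Ico v1 0, ins v y0 ∈ Psi '' DD t0 r f := by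
    intro v hv
    obtain ⟨z, hz, hzy, _⟩ := hin y0 hy0 v ⟨hv1.1.trans hv.1, hv.2⟩
    exact ⟨z, hz, hzy⟩
  obtain ⟨B, hBint, hBest⟩ := hB 4 ρ1 (by norm_num) hρ1
  have hUi : ∀ x, x ∈ Psi '' DD t0 r f → x ∈ U := by
    rintro _ ⟨z, hz, rfl⟩
    exact h.maps (h.DD_sub hz)
  have hpt : ∀ v ∈ Ico v1 0, ENNReal.ofReal (chi4 K (ins v y0)) ≤
      ENNReal.ofReal (56 * P) * (1 + ‖l v‖ₑ) + 7 * B v := by
    intro v hv
    have hyU := hUi _ (himg v hv)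
    have hl0 := abs_nonneg (l v)
    set S := P * (1 + |l v|) with hS
    have hS0 : 0 ≤ S := by positivity
    set χ := chi4 K (ins v y0) with hχ
    have hχ0 : 0 ≤ χ := by rw [hχ]; unfold chi4; positivity
    set w := χ / 56 + S with hwd
    have hw0 : 0 ≤ w := by positivity
    have hχe : χ = |fderiv ℝ K.g11 (ins v y0) (e4 K (ins v y0))| +
        |fderiv ℝ K.g12 (ins v y0) (e4 K (ins v y0))| +
        |fderiv ℝ K.g22 (ins v y0) (e4 K (ins v y0))| := rfl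
    rcases le_total (8 * w) (max |fderiv ℝ K.g11 (ins v y0) (e4 K (ins v y0))|
        (max |fderiv ℝ K.g22 (ins v y0) (e4 K (ins v y0))|
          |fderiv ℝ K.g11 (ins v y0) (e4 K (ins v y0)) +
            2 * fderiv ℝ K.g12 (ins v y0) (e4 K (ins v y0)) +
            fderiv ℝ K.g22 (ins v y0) (e4 K (ins v y0))|)) with hc | hc
    · obtain ⟨j, σ, γ, hσ, hγ, hsum, hdir⟩ := choose_dir hw0 hc
      have h1 := hBest v hv j σ γ hσ hγ (by
        intro y hy1 hy2 hyi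
        have hyU' := hUi _ hyi
        obtain ⟨o1, o2, o3⟩ := hosc v ⟨hva1.trans hv.1, hv.2⟩ y y0 hyU' hyU hy1 hy2
        have := hdir _ _ _ o1 o2 o3
        rw [D3_eq]
        exact this)
      calc ENNReal.ofReal χ ≤ ENNReal.ofReal (7 * γ) := by
            apply ENNReal.ofReal_le_ofReal
            exact hsum
        _ = 7 * ENNReal.ofReal γ := by
            rw [ENNReal.ofReal_mul (by norm_num)]; norm_num
        _ ≤ 7 * B v := by gcongr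
        _ ≤ _ := le_add_self
    · have hle : χ ≤ (56 * P) * (1 + |l v|) := by
        generalize fderiv ℝ K.g11 (ins v y0) (e4 K (ins v y0)) = d11 at *
        generalize fderiv ℝ K.g12 (ins v y0) (e4 K (ins v y0)) = d12 at *
        generalize fderiv ℝ K.g22 (ins v y0) (e4 K (ins v y0)) = d22 at *
        have h1 : |d11| ≤ 8 * w := (le_max_left _ _).trans hc
        have h2 : |d22| ≤ 8 * w := ((le_max_left _ _).trans (le_max_right _ _)).trans hc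
        have h3 : |d11 + 2 * d12 + d22| ≤ 8 * w :=
          ((le_max_right _ _).trans (le_max_right _ _)).trans hc
        have h4 : |d12| ≤ 12 * w := by
          rw [abs_le] at *
          constructor <;> linarith only [h1, h2, h3]
        have h5 : χ ≤ 28 * w := by rw [hχe]; linarith only [h1, h2, h4]
        have h6 : 28 * w = χ / 2 + 28 * S := by rw [hwd]; ring
        have : 56 * P * (1 + |l v|) = 56 * S := by rw [hS]; ring
        linarith only [hwd, hχe, h1, h2, h4]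
      calc ENNReal.ofReal χ ≤ ENNReal.ofReal ((56 * P) * (1 + |l v|)) :=
            ENNReal.ofReal_le_ofReal hle
        _ = ENNReal.ofReal (56 * P) * (1 + ‖l v‖ₑ) := by
            rw [ENNReal.ofReal_mul (by positivity), ENNReal.ofReal_add (by norm_num) hl0,
              ENNReal.ofReal_one, ← Real.norm_eq_abs, ofReal_norm]
        _ ≤ _ := le_self_add
  have hvol : (volume.restrict (Ico v1 0)) univ ≠ ⊤ := by
    rw [Measure.restrict_apply MeasurableSet.univ, univ_inter, Real.volume_Ico]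
    exact ENNReal.ofReal_ne_top
  have hl1 : LpF p (volume.restrict (Ico v1 0)) (fun v => ‖l v‖ₑ) :=
    hl.mono_meas (Measure.restrict_mono (Ico_subset_Ico_left hva1) le_rfl)
  have h1 : LpF p (volume.restrict (Ico v1 0)) (fun v => (1:ENNReal) + ‖l v‖ₑ) :=
    LpF.add (LpF.const hvol (by norm_num)) hl1 hp aemeasurable_const
  have hm1 : Measurable (fun v => ENNReal.ofReal (56 * P) * (1 + ‖l v‖ₑ)) :=
    (hlm.enorm.const_add 1).const_mul _
  have hfin : LpF p (volume.restrict (Ico v1 0))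
      (fun v => ENNReal.ofReal (56 * P) * (1 + ‖l v‖ₑ) + 7 * B v) :=
    LpF.add (h1.const_mul ENNReal.ofReal_ne_top) (hBint.const_mul (by norm_num)) hp
      hm1.aemeasurable
  refine hfin.mono_ae ?_
  rw [ae_restrict_iff' measurableSet_Ico]
  exact Eventually.of_forall fun v hv => hpt v hv

end Vale.Agent.P354z
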