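import Vale.Agent.P354x.Fin3

set_option maxSynthPendingDepth 3

open Set MeasureTheory Filter Topology

namespace Vale.Agent.P354z

open Vale.Agent.P354w Vale.Agent.P354x PreHyp CoreHyp

variable {K : Coef} {G : P4 → P4 →L[ℝ] P4 →L[ℝ] ℝ} {Psi : P4 → P4} {V U : Set P4}
    {C R : ℝ} {cv cw cu : ℝ → ℝ} {t0 r : ℝ} {f : P3 → ℝ}

/-- For almost every good generator the metric derivatives which are comparable to
a constant on balls of radius `cv ^ (-1/2)` are square integrable. -/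
theorem core_Y (h : CoreHyp K G Psi V U C R cv cw cu t0 r f)
    (hcv : ∫⁻ v in Ico (-(2 * R)) 0, ENNReal.ofReal (cv v) ≠ ⊤)
    (hcw : ∫⁻ v in Ico (-(2 * R)) 0, ENNReal.ofReal (cw v) ≠ ⊤)
    (hcu' : ∫⁻ u in Icc (-(2 * R)) (2 * R), ENNReal.ofReal (cu u) ≠ ⊤)
    (hcu : ∀ u, cu u ≤ C) {κ v0 : ℝ} (hκ : 1 ≤ κ) (hv0 : v0 < 0) {Y : Set P3}
    (hYm : MeasurableSet Y) (hvlo : ∀ x : P3, ‖x‖ ≤ r / 2 → (Psi (t0, x)).2.1 < v0)
    (hY : ∀ y ∈ Y, ∀ v ∈ Ico v0 0, ∃ z ∈ DD t0 r f, Psi z = ins v y ∧ ‖z.2‖ ≤ r / 4 ∧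
      QQ Psi z ≤ κ) :
    ∀ᵐ y0 : P3, y0 ∈ Y →
      ∀ m ρ : ℝ, 0 < m → 0 < ρ → ∃ B : ℝ → ENNReal, ∫⁻ v in Ico v0 0, B v ^ 2 ≠ ⊤ ∧
        ∀ v ∈ Ico v0 0, ∀ (j : Fin 3) (σ γ : ℝ), |σ| = 1 → 0 ≤ γ →
          (∀ y : P3, ‖y - y0‖ < ρ → cv v * ‖y - y0‖ ^ 2 < ρ → ins v y ∈ Psi '' DD t0 r f →
            |fderiv ℝ K.g11 (ins v y) (e4 K (ins v y))| ≤ m * γ ∧
            |fderiv ℝ K.g12 (ins v y) (e4 K (ins v y))| ≤ m * γ ∧
            |fderiv ℝ K.g22 (ins v y) (e4 K (ins v y))| ≤ m * γ ∧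
            γ ≤ σ * D3 K j (ins v y)) → ENNReal.ofReal γ ≤ B v := by
  obtain ⟨D, hD, hest⟩ := local_est3 h hcv hcw hcu' hcu hκ
  filter_upwards [density hYm, ae_all_iff.mpr (avL_ae h.toPreHyp)] with y0 hdens0 havg hy0
  have hdens := hdens0 hy0
  have himg : ∀ v ∈ Ico v0 0, ins v y0 ∈ Psi '' DD t0 r f := by
    intro v hv
    obtain ⟨z, hz, hzy, _⟩ := hY y0 hy0 v hv
    exact ⟨z, hz, hzy⟩
  have hRv : -R ≤ v0 := by
    obtain ⟨z, hz, hzy⟩ := himg v0 ⟨le_refl _, hv0⟩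
    have := (h.U_sub _ (h.maps (h.DD_sub hz))).2.1
    rw [hzy] at this
    exact this
  intro m ρ hm hρ
  set δ : ℝ := (8192 * (1 + D * m))⁻¹ with hδ
  have hδ0 : 0 < δ := by rw [hδ]; positivity
  obtain ⟨ρ0, hρ0, hdn⟩ := hdens δ hδ0
  obtain ⟨n, hn⟩ := exists_nat_one_div_lt (lt_min hρ0 hρ)
  rw [one_div, lt_min_iff] at hn
  refine ⟨fun v => ENNReal.ofReal (1024 * D) * (ENNReal.ofReal (16 * (rad cv n v)⁻¹) +
    AvL G Psi V t0 r f cv n y0 v), ?_, ?_⟩
  · have hb : ∀ v, (ENNReal.ofReal (1024 * D) * (ENNReal.ofReal (16 * (rad cv n v)⁻¹) +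
        AvL G Psi V t0 r f cv n y0 v)) ^ 2 ≤ (ENNReal.ofReal (1024 * D) ^ 2 * 4) *
        (ENNReal.ofReal ((16 * ((n : ℝ) + 1)) * Real.sqrt (1 + max (cv v) 0)) ^ 2 +
        AvL G Psi V t0 r f cv n y0 v ^ 2) := by
      intro v
      have e : 16 * (rad cv n v)⁻¹ = (16 * ((n : ℝ) + 1)) * Real.sqrt (1 + max (cv v) 0) := by
        rw [inv_rad]; ring
      rw [e, mul_pow, mul_assoc (ENNReal.ofReal (1024 * D) ^ 2)]
      exact mul_le_mul_right (add_sq_le4 _ _) _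
    refine ne_top_of_le_ne_top ?_ (lintegral_mono hb)
    rw [lintegral_const_mul' _ _ (by
      apply ENNReal.mul_ne_top (ENNReal.pow_ne_top ENNReal.ofReal_ne_top) (by norm_num))]
    apply ENNReal.mul_ne_top
    · exact ENNReal.mul_ne_top (ENNReal.pow_ne_top ENNReal.ofReal_ne_top) (by norm_num)
    rw [lintegral_add_left]
    · apply ENNReal.add_ne_top.mpr
      refine ⟨lintegral_rt h.toPreHyp hRv _, ?_⟩
      exact ne_top_of_le_ne_top (havg n) (setLIntegral_le_lintegral _ _)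
    · have := h.cv_meas
      fun_prop
  · intro v hv j σ γ hσ hγ hball
    have hr0 := rad_pos cv n v
    have hr1 := rad_le cv n v
    have hr2 := rad_le_one cv n v
    have hr3 := cv_rad_sq cv n v
    have hrr : 2 * (rad cv n v / 2) = rad cv n v := by ring
    have h1 := hest j v y0 (rad cv n v / 2) σ γ (m * γ) Y hv.2
      (fun x hx => lt_of_lt_of_le (hvlo x hx) hv.1) (by positivity) (by linarith only [hr2]) hσ hγ
      (by positivity) hYm (fun y hy => hY y hy v hv)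
      (by
        intro y hy hyi
        rw [hrr, Metric.mem_ball, dist_eq_norm] at hy
        apply hball y (by linarith only [hr1, hy, hn.2]) _ hyi
        by_cases hcv0 : 0 ≤ cv v
        · calc cv v * ‖y - y0‖ ^ 2 ≤ cv v * rad cv n v ^ 2 := by gcongr
            _ < ρ := by linarith only [hr3, hn.2]
        · push Not at hcv0
          have : cv v * ‖y - y0‖ ^ 2 ≤ 0 := mul_nonpos_of_nonpos_of_nonneg hcv0.le (by positivity)
          linarith only [hn, hr0, hr1, this])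
    rw [hrr, vol_ball y0 hr0.le] at h1
    refine absorb hγ hD hm hr0 hδ h1 ?_ ?_ (le_refl _)
    · have e1 : ENNReal.ofReal (rad cv n v ^ 3 / 512) = volume (Metric.ball y0 (rad cv n v / 2 / 8)) := by
        rw [vol_ball y0 (by positivity)]
        congr 1
        ring
      rw [e1, ← measure_inter_add_diff (Metric.ball y0 (rad cv n v / 2 / 8)) hYm]
      gcongr
      refine le_trans (measure_mono ?_) (hdn _ hr0 (by linarith only [hr1, hn.1]))
      apply diff_subset_diff_left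
      apply Metric.ball_subset_ball
      linarith only [hr0]
    · exact hdn _ hr0 (by linarith only [hr1, hn.1])

end Vale.Agent.P354z
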