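import Vale.Agent.P354z.O1

set_option maxSynthPendingDepth 3

open Set MeasureTheory Filter Topology

namespace Vale.Agent.P354z

open Vale.Agent.P354w Vale.Agent.P354x PreHyp CoreHyp

variable {K : Coef} {G : P4 → P4 →L[ℝ] P4 →L[ℝ] ℝ} {Psi : P4 → P4} {V U : Set P4}
    {C R : ℝ} {cv cw cu : ℝ → ℝ} {t0 r : ℝ} {f : P3 → ℝ}

/-- the part of the growth of the frame components which does not depend on the line -/
noncomputable def W0 (R : ℝ) (cv cw cu : ℝ → ℝ) : ENNReal :=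
  (∫⁻ v in Ico (-R) 0, ENNReal.ofReal (cv v)) + (∫⁻ v in Ico (-R) 0, ENNReal.ofReal (cw v)) +
    (∫⁻ u in Icc (-R) R, ENNReal.ofReal (cu u)) + volume (Icc (-R) R) + volume (Ico (-R) (0:ℝ))

lemma W0_ne_top (h : PreHyp K G Psi V U C R cv cw cu t0 r f) : W0 R cv cw cu ≠ ⊤ := by
  have hvol1 : volume (Icc (-R) R) ≠ ⊤ := by simp [Real.volume_Icc]
  have hvol2 : volume (Ico (-R) (0:ℝ)) ≠ ⊤ := by simp [Real.volume_Ico]
  exact ENNReal.add_ne_top.mpr ⟨ENNReal.add_ne_top.mpr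
      ⟨ENNReal.add_ne_top.mpr ⟨ENNReal.add_ne_top.mpr ⟨h.cv_int, h.cw_int⟩, h.cu_int⟩,
      hvol1⟩, hvol2⟩

/-- growth of the frame components along a segment of an exotic vertical line -/
lemma seg_bound (h : PreHyp K G Psi V U C R cv cw cu t0 r f) {x : P3}
    (hx : x ∈ Metric.ball (0 : P3) r) {s0 t : ℝ} (hs0 : t0 ≤ s0) (hst : s0 ≤ t) (htf : t < f x) :
    ENNReal.ofReal |Real.log (fderiv ℝ Psi (t, x) e1).2.1 -
        Real.log (fderiv ℝ Psi (s0, x) e1).2.1| ≤ ENNReal.ofReal (100 * C ^ 5) *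
          ((∫⁻ s in Icc s0 t, ‖fderiv ℝ G (s, x)‖ₑ) + W0 R cv cw cu) ∧
    ENNReal.ofReal |Real.log (fderiv ℝ Psi (t, x) e1).2.2.1 -
        Real.log (fderiv ℝ Psi (s0, x) e1).2.2.1| ≤ ENNReal.ofReal (100 * C ^ 5) *
          ((∫⁻ s in Icc s0 t, ‖fderiv ℝ G (s, x)‖ₑ) + W0 R cv cw cu) := by
  classical
  have hC : 1 ≤ C := by
    have : (t0, x) ∈ V := h.memV x hx t0 ⟨le_refl _, h.t0f x hx⟩
    exact (h.pt this).bd.one_le
  set n := ∫⁻ s in Icc s0 t, ‖fderiv ℝ G (s, x)‖ₑ with hndef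
  set Iv := ∫⁻ v in Ico (-R) 0, ENNReal.ofReal (cv v) with hIv
  set Iu := ∫⁻ u in Icc (-R) R, ENNReal.ofReal (cu u) with hIu
  set Iw := ∫⁻ v in Ico (-R) 0, ENNReal.ofReal (cw v) with hIw
  set T : ENNReal := ENNReal.ofReal (100 * C ^ 5) * (n + Iv + Iw + Iu + volume (Icc (-R) R)
    + volume (Ico (-R) (0:ℝ))) with hT
  have hTe : ENNReal.ofReal (100 * C ^ 5) * (n + W0 R cv cw cu) = T := by
    rw [hT, W0, ← hIv, ← hIu, ← hIw]
    congr 1
    ring
  rw [hTe]
  have hsub : ∀ s ∈ Icc s0 t, (s, x) ∈ V := fun s hs =>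
    h.memV x hx s ⟨hs0.trans hs.1, lt_of_le_of_lt hs.2 htf⟩
  have hline : ContinuousOn (fun s : ℝ => ((s, x) : P4)) (Icc s0 t) := by fun_prop
  have hmapsV : MapsTo (fun s : ℝ => ((s, x) : P4)) (Icc s0 t) V := hsub
  -- the common majorant
  set W : ℝ → ENNReal := fun s => ENNReal.ofReal (100 * C ^ 5) * (‖fderiv ℝ G (s, x)‖ₑ
    + ENNReal.ofReal (fderiv ℝ Psi (s, x) e1).2.1 * ENNReal.ofReal (cv (Psi (s, x)).2.1)
    + ENNReal.ofReal (fderiv ℝ Psi (s, x) e1).2.1 * ENNReal.ofReal (cw (Psi (s, x)).2.1)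
    + ENNReal.ofReal (fderiv ℝ Psi (s, x) e1).2.2.1 * ENNReal.ofReal (cu (Psi (s, x)).2.2.1)
    + ENNReal.ofReal (fderiv ℝ Psi (s, x) e1).2.2.1 * 1
    + ENNReal.ofReal (fderiv ℝ Psi (s, x) e1).2.1 * 1) with hWdef
  have hv : ∀ s ∈ Icc s0 t, HasDerivAt (fun s => (Psi (s, x)).2.1) (fderiv ℝ Psi (s, x) e1).2.1 s :=
    fun s hs => (h.hasDerivAt_line (hsub s hs)).snd.fst
  have hu : ∀ s ∈ Icc s0 t, HasDerivAt (fun s => (Psi (s, x)).2.2.1)
      (fderiv ℝ Psi (s, x) e1).2.2.1 s :=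
    fun s hs => (h.hasDerivAt_line (hsub s hs)).snd.snd.fst
  have hposv : ∀ s ∈ Icc s0 t, 0 < (fderiv ℝ Psi (s, x) e1).2.1 := fun s hs => h.pos _ (hsub s hs)
  have hposu : ∀ s ∈ Icc s0 t, 0 < (fderiv ℝ Psi (s, x) e1).2.2.1 :=
    fun s hs => (h.pt (hsub s hs)).sq_le.2.1
  have hmv : MapsTo (fun s => (Psi (s, x)).2.1) (Icc s0 t) (Ico (-R) 0) := by
    intro s hs
    obtain ⟨_, h1, h2, _, _⟩ := h.U_sub _ (h.maps (hsub s hs))
    exact ⟨h1, h2⟩
  have hmu : MapsTo (fun s => (Psi (s, x)).2.2.1) (Icc s0 t) (Icc (-R) R) := by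
    intro s hs
    obtain ⟨_, _, _, h3, _⟩ := h.U_sub _ (h.maps (hsub s hs))
    exact abs_le.mp h3
  have i2 := subst_le (φ := fun s => (Psi (s, x)).2.1) measurableSet_Icc ordConnected_Icc hv hposv
    hmv (fun v => ENNReal.ofReal (cv v))
  have i2w := subst_le (φ := fun s => (Psi (s, x)).2.1) measurableSet_Icc ordConnected_Icc hv hposv
    hmv (fun v => ENNReal.ofReal (cw v))
  have i3 := subst_le (φ := fun s => (Psi (s, x)).2.2.1) measurableSet_Icc ordConnected_Icc hu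
    hposu hmu (fun v => ENNReal.ofReal (cu v))
  have i4 := subst_le (φ := fun s => (Psi (s, x)).2.2.1) measurableSet_Icc ordConnected_Icc hu
    hposu hmu (fun v => (1 : ENNReal))
  have i5 := subst_le (φ := fun s => (Psi (s, x)).2.1) measurableSet_Icc ordConnected_Icc hv hposv
    hmv (fun v => (1 : ENNReal))
  simp only [lintegral_const, one_mul, Measure.restrict_apply MeasurableSet.univ, univ_inter]
    at i4 i5
  have hcontb : ContinuousOn (fun s : ℝ => (fderiv ℝ Psi (s, x) e1).2.1) (Icc s0 t) := by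
    intro s hs
    exact ((h.hasDerivAt_line2 (hsub s hs)).continuousAt.snd.fst).continuousWithinAt
  have hconta : ContinuousOn (fun s : ℝ => (fderiv ℝ Psi (s, x) e1).2.2.1) (Icc s0 t) := by
    intro s hs
    exact ((h.hasDerivAt_line2 (hsub s hs)).continuousAt.snd.snd.fst).continuousWithinAt
  have hPsi : ContinuousOn (fun s : ℝ => Psi (s, x)) (Icc s0 t) := by
    intro s hs
    exact (h.hasDerivAt_line (hsub s hs)).continuousAt.continuousWithinAt
  have hmeasline : Measurable (fun s : ℝ => ((s, x) : P4)) := by fun_prop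
  have m1 : AEMeasurable (fun s : ℝ => ‖fderiv ℝ G (s, x)‖ₑ) (volume.restrict (Icc s0 t)) :=
    ((measurable_fderiv ℝ G).comp hmeasline).enorm.aemeasurable
  have m2 : AEMeasurable (fun s : ℝ => ENNReal.ofReal (fderiv ℝ Psi (s, x) e1).2.1)
      (volume.restrict (Icc s0 t)) :=
    (hcontb.aemeasurable measurableSet_Icc).ennreal_ofReal
  have m3 : AEMeasurable (fun s : ℝ => ENNReal.ofReal (fderiv ℝ Psi (s, x) e1).2.2.1)
      (volume.restrict (Icc s0 t)) :=
    (hconta.aemeasurable measurableSet_Icc).ennreal_ofReal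
  have mP : AEMeasurable (fun s : ℝ => Psi (s, x)) (volume.restrict (Icc s0 t)) :=
    hPsi.aemeasurable measurableSet_Icc
  have m4 : AEMeasurable (fun s : ℝ => ENNReal.ofReal (cv (Psi (s, x)).2.1))
      (volume.restrict (Icc s0 t)) :=
    (h.cv_meas.comp_aemeasurable mP.snd.fst).ennreal_ofReal
  have m4w : AEMeasurable (fun s : ℝ => ENNReal.ofReal (cw (Psi (s, x)).2.1))
      (volume.restrict (Icc s0 t)) :=
    (h.cw_meas.comp_aemeasurable mP.snd.fst).ennreal_ofReal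
  have m5 : AEMeasurable (fun s : ℝ => ENNReal.ofReal (cu (Psi (s, x)).2.2.1))
      (volume.restrict (Icc s0 t)) :=
    (h.cu_meas.comp_aemeasurable mP.snd.snd.fst).ennreal_ofReal
  have hWle : ∫⁻ s in Icc s0 t, W s ≤ T := by
    rw [hWdef, hT]
    rw [lintegral_const_mul'' _ (by
      exact (((((m1.add (m2.mul m4)).add (m2.mul m4w)).add (m3.mul m5)).add
        (m3.mul aemeasurable_const)).add (m2.mul aemeasurable_const)))]
    gcongr
    rw [lintegral_add_left' (by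
      exact ((((m1.add (m2.mul m4)).add (m2.mul m4w)).add (m3.mul m5)).add
        (m3.mul aemeasurable_const)))]
    rw [lintegral_add_left' (by exact (((m1.add (m2.mul m4)).add (m2.mul m4w)).add (m3.mul m5)))]
    rw [lintegral_add_left' (by exact ((m1.add (m2.mul m4)).add (m2.mul m4w)))]
    rw [lintegral_add_left' (by exact (m1.add (m2.mul m4)))]
    rw [lintegral_add_left' m1]
    gcongr
  have hC5 : 0 ≤ C ^ 5 := by positivity
  have key : ∀ s ∈ Icc s0 t, ∀ q' q : ℝ, 0 < q → |q'| ≤ 100 * C ^ 5 * (q * (‖fderiv ℝ G (s, x)‖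
      + cv (Psi (s, x)).2.1 * (fderiv ℝ Psi (s, x) e1).2.1
      + cw (Psi (s, x)).2.1 * (fderiv ℝ Psi (s, x) e1).2.1
      + cu (Psi (s, x)).2.2.1 * (fderiv ℝ Psi (s, x) e1).2.2.1
      + (fderiv ℝ Psi (s, x) e1).2.2.1 + (fderiv ℝ Psi (s, x) e1).2.1)) →
      ENNReal.ofReal (|q'| / q) ≤ W s := by
    intro s hs q' q hq hle
    have hb := hposv s hs
    have ha := hposu s hs
    have hcv := (h.pt (hsub s hs)).bd.cv0
    have hcw := (h.pt (hsub s hs)).bd.cw0
    have hcu := (h.pt (hsub s hs)).bd.cu0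
    have h1 : |q'| / q ≤ 100 * C ^ 5 * (‖fderiv ℝ G (s, x)‖
      + cv (Psi (s, x)).2.1 * (fderiv ℝ Psi (s, x) e1).2.1
      + cw (Psi (s, x)).2.1 * (fderiv ℝ Psi (s, x) e1).2.1
      + cu (Psi (s, x)).2.2.1 * (fderiv ℝ Psi (s, x) e1).2.2.1
      + (fderiv ℝ Psi (s, x) e1).2.2.1 + (fderiv ℝ Psi (s, x) e1).2.1) := by
      rw [div_le_iff₀ hq]
      linarith
    refine (ENNReal.ofReal_le_ofReal h1).trans ?_
    rw [hWdef]
    simp only [mul_one]
    rw [ENNReal.ofReal_mul (by positivity), ENNReal.ofReal_add (by positivity) hb.le,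
      ENNReal.ofReal_add (by positivity) ha.le, ENNReal.ofReal_add (by positivity) (by positivity),
      ENNReal.ofReal_add (by positivity) (by positivity),
      ENNReal.ofReal_add (by positivity) (by positivity), ENNReal.ofReal_mul hcv,
      ENNReal.ofReal_mul hcw, ENNReal.ofReal_mul hcu, ofReal_norm,
      mul_comm (ENNReal.ofReal (cv _)), mul_comm (ENNReal.ofReal (cw _)),
      mul_comm (ENNReal.ofReal (cu _))]
  have hsdc : ContinuousOn (fun s : ℝ => Sd Psi (s, x) e1 e1) (Icc s0 t) :=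
    (h.continuousOn_Sd e1 e1).comp hline hmapsV
  constructor
  · have h1 := log_bound (q := fun s => (fderiv ℝ Psi (s, x) e1).2.1)
      (q' := fun s => (Sd Psi (s, x) e1 e1).2.1) (W := W) hst
      (fun s hs => (h.hasDerivAt_line2 (hsub s hs)).snd.fst)
      (hsdc.snd.fst) hposv (by
        intro s hs
        obtain ⟨N, hN⟩ := h.exists_pre (hsub s hs) (e3 K (Psi (s, x)))
        have h2 := (h.pt (hsub s hs)).Sv_TT hN
        refine key s hs _ _ (hposv s hs) (h2.trans ?_)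
        have hb := hposv s hs
        have ha := hposu s hs
        have hcv := (h.pt (hsub s hs)).bd.cv0
        have : (0:ℝ) ≤ C ^ 5 * ((fderiv ℝ Psi (s, x) e1).2.1 *
          (cv (Psi (s, x)).2.1 * (fderiv ℝ Psi (s, x) e1).2.1)) := by positivity
        linarith)
    exact h1.trans hWle
  · have h1 := log_bound (q := fun s => (fderiv ℝ Psi (s, x) e1).2.2.1)
      (q' := fun s => (Sd Psi (s, x) e1 e1).2.2.1) (W := W) hst
      (fun s hs => (h.hasDerivAt_line2 (hsub s hs)).snd.snd.fst)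
      (hsdc.snd.snd.fst) hposu (by
        intro s hs
        obtain ⟨N, hN⟩ := h.exists_pre (hsub s hs) (e4 K (Psi (s, x)))
        have h2 := (h.pt (hsub s hs)).Su_TT hN
        refine key s hs _ _ (hposu s hs) (h2.trans ?_)
        have hb := hposv s hs
        have ha := hposu s hs
        have hcw := (h.pt (hsub s hs)).bd.cw0
        have : (0:ℝ) ≤ C ^ 5 * ((fderiv ℝ Psi (s, x) e1).2.2.1 *
          (cw (Psi (s, x)).2.1 * (fderiv ℝ Psi (s, x) e1).2.1)) := by positivity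
        linarith)
    exact h1.trans hWle

/-- growth of `QQ` along a segment of an exotic vertical line -/
lemma seg_QQ (h : PreHyp K G Psi V U C R cv cw cu t0 r f) {x : P3}
    (hx : x ∈ Metric.ball (0 : P3) r) {s0 t M : ℝ} (hs0 : t0 ≤ s0) (hst : s0 ≤ t) (htf : t < f x)
    (hM : 0 ≤ M) (hle : ENNReal.ofReal (100 * C ^ 5) *
          ((∫⁻ s in Icc s0 t, ‖fderiv ℝ G (s, x)‖ₑ) + W0 R cv cw cu) ≤ ENNReal.ofReal M) :
    QQ Psi (t, x) ≤ QQ Psi (s0, x) * Real.exp M := by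
  obtain ⟨h1, h2⟩ := seg_bound h hx hs0 hst htf
  have h1' := h1.trans hle
  have h2' := h2.trans hle
  rw [ENNReal.ofReal_le_ofReal_iff hM] at h1' h2'
  have hz : (t, x) ∈ V := h.memV x hx t ⟨hs0.trans hst, htf⟩
  have hz0 : (s0, x) ∈ V := h.memV x hx s0 ⟨hs0, lt_of_le_of_lt hst htf⟩
  have k1 := exp_aux (h.pos _ hz) (h.pos _ hz0) h1'
  have k2 := exp_aux (h.pt hz).sq_le.2.1 (h.pt hz0).sq_le.2.1 h2'
  unfold QQ
  rw [add_mul]
  exact add_le_add k2 k1

/-- **The supremum bound**: along an exotic vertical line the frame components are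
controlled by the energy of the line. -/
theorem sup_line (h : PreHyp K G Psi V U C R cv cw cu t0 r f) {x : P3}
    (hx : x ∈ Metric.ball (0 : P3) r) {κ0 : ℝ} (hκ0 : QQ Psi (t0, x) ≤ κ0) {t : ℝ}
    (ht : t ∈ Ico t0 (f x)) :
    ENNReal.ofReal (QQ Psi (t, x)) ≤
      ENNReal.ofReal (κ0 * Real.exp (100 * C ^ 5 * (1 + (W0 R cv cw cu).toReal) + 1)) +
      ENNReal.ofReal (3 * R * Real.exp (100 * C ^ 5 * (1 + (W0 R cv cw cu).toReal) + 1)) *
        ∫⁻ s in Ico t0 (f x), ‖fderiv ℝ G (s, x)‖ₑ ^ 2 := by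
  have hC : 1 ≤ C := by
    have : (t0, x) ∈ V := h.memV x hx t0 ⟨le_refl _, h.t0f x hx⟩
    exact (h.pt this).bd.one_le
  set w := (W0 R cv cw cu).toReal with hw
  have hw0 : 0 ≤ w := ENNReal.toReal_nonneg
  have hW0 : W0 R cv cw cu = ENNReal.ofReal w := (ENNReal.ofReal_toReal (W0_ne_top h)).symm
  set M : ℝ := 100 * C ^ 5 * (1 + w) with hM
  have hM0 : 0 ≤ M := by positivity
  set A := Real.exp (M + 1) with hA
  have hA0 : 0 < A := Real.exp_pos _
  set E := ∫⁻ s in Ico t0 (f x), ‖fderiv ℝ G (s, x)‖ₑ ^ 2 with hE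
  have hzV : ∀ s ∈ Ico t0 (f x), ((s, x) : P4) ∈ V := fun s hs => h.memV x hx s hs
  have hq : 0 < QQ Psi (t, x) := QQ_pos h (hzV t ht)
  rcases le_or_gt (QQ Psi (t, x)) (κ0 * A) with hcase | hcase
  · exact (ENNReal.ofReal_le_ofReal hcase).trans le_self_add
  -- the last time at which `QQ` is small
  have hsub : Icc t0 t ⊆ Ico t0 (f x) := fun s hs => ⟨hs.1, lt_of_le_of_lt hs.2 ht.2⟩
  have hcl : ContinuousOn (fun s : ℝ => QQ Psi (s, x)) (Icc t0 t) := by
    intro s hs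
    have h1 : ContinuousAt (QQ Psi) (s, x) := contAt_QQ h (hzV s (hsub hs))
    have h2 : ContinuousAt (fun s : ℝ => ((s, x) : P4)) s := by fun_prop
    exact (ContinuousAt.comp (g := QQ Psi) (f := fun s : ℝ => ((s, x) : P4)) h1
      h2).continuousWithinAt
  have hcomp : IsCompact (Icc t0 t ∩ {s : ℝ | QQ Psi (s, x) ≤ QQ Psi (t, x) / A}) := by
    have := hcl.preimage_isClosed_of_isClosed isClosed_Icc (isClosed_Iic (a := QQ Psi (t, x) / A))
    exact isCompact_Icc.of_isClosed_subset this inter_subset_left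
  have ht0mem : t0 ∈ Icc t0 t ∩ {s : ℝ | QQ Psi (s, x) ≤ QQ Psi (t, x) / A} := by
    refine ⟨⟨le_refl _, ht.1⟩, ?_⟩
    show QQ Psi (t0, x) ≤ QQ Psi (t, x) / A
    rw [le_div_iff₀ hA0]
    calc QQ Psi (t0, x) * A ≤ κ0 * A := by gcongr
      _ ≤ _ := hcase.le
  obtain ⟨s, ⟨hs, hsq⟩, hgr⟩ := hcomp.exists_isGreatest ⟨t0, ht0mem⟩
  have hsq' : QQ Psi (s, x) ≤ QQ Psi (t, x) / A := hsq
  have hlarge : ∀ τ ∈ Ioc s t, QQ Psi (t, x) / A ≤ QQ Psi (τ, x) := by
    intro τ hτ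
    by_contra hc
    push Not at hc
    have := hgr ⟨⟨hs.1.trans hτ.1.le, hτ.2⟩, hc.le⟩
    exact absurd hτ.1 (not_lt.mpr this)
  -- the duration
  have hdur : QQ Psi (t, x) / A * (t - s) ≤ 3 * R := by
    have hder : ∀ τ ∈ Icc s t, HasDerivAt (fun τ => (Psi (τ, x)).2.2.1 + (Psi (τ, x)).2.1)
        (QQ Psi (τ, x)) τ := by
      intro τ hτ
      have h1 := h.hasDerivAt_line (hzV τ (hsub ⟨hs.1.trans hτ.1, hτ.2⟩))
      have k1 : HasDerivAt (fun τ => (Psi (τ, x)).2.2.1) (fderiv ℝ Psi (τ, x) e1).2.2.1 τ :=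
        h1.snd.snd.fst
      have k2 : HasDerivAt (fun τ => (Psi (τ, x)).2.1) (fderiv ℝ Psi (τ, x) e1).2.1 τ :=
        h1.snd.fst
      exact k1.add k2
    have h2 := Convex.mul_sub_le_image_sub_of_le_deriv (convex_Icc s t)
      (f := fun τ => (Psi (τ, x)).2.2.1 + (Psi (τ, x)).2.1)
      (fun τ hτ => (hder τ hτ).continuousAt.continuousWithinAt)
      (fun τ hτ => (hder τ (interior_subset hτ)).differentiableAt.differentiableWithinAt)
      (C := QQ Psi (t, x) / A)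
      (by
        intro τ hτ
        rw [interior_Icc] at hτ
        rw [(hder τ ⟨hτ.1.le, hτ.2.le⟩).deriv]
        exact hlarge τ ⟨hτ.1, hτ.2.le⟩)
      s (left_mem_Icc.mpr hs.2) t (right_mem_Icc.mpr hs.2) hs.2
    obtain ⟨_, a2, a3, a4, _⟩ := h.U_sub _ (h.maps (hzV t ht))
    obtain ⟨_, b2, b3, b4, _⟩ := h.U_sub _ (h.maps (hzV s (hsub hs)))
    rw [abs_le] at a4 b4
    refine h2.trans ?_
    show (Psi (t, x)).2.2.1 + (Psi (t, x)).2.1 - ((Psi (s, x)).2.2.1 + (Psi (s, x)).2.1) ≤ _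
    linarith
  -- the energy
  have hbig : 1 < ∫⁻ τ in Icc s t, ‖fderiv ℝ G (τ, x)‖ₑ := by
    by_contra hc
    push Not at hc
    have h3 := seg_QQ h hx hs.1 hs.2 ht.2 hM0 (by
      rw [hM, ENNReal.ofReal_mul (p := 100 * C ^ 5) (by positivity),
        ENNReal.ofReal_add (p := 1) (by norm_num) hw0, ENNReal.ofReal_one, hW0]
      gcongr)
    have h4 : QQ Psi (t, x) ≤ QQ Psi (t, x) / A * Real.exp M :=
      h3.trans (mul_le_mul_of_nonneg_right hsq' (Real.exp_pos _).le)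
    have h5 : QQ Psi (t, x) / A * Real.exp M = QQ Psi (t, x) * Real.exp (-1) := by
      rw [hA, div_mul_eq_mul_div, mul_div_assoc, ← Real.exp_sub]
      congr 2
      ring
    rw [h5] at h4
    have h6 : Real.exp (-1) < 1 := by
      rw [Real.exp_lt_one_iff]; norm_num
    have : QQ Psi (t, x) * Real.exp (-1) < QQ Psi (t, x) * 1 := by gcongr
    linarith
  have hmeasline : Measurable (fun s : ℝ => ((s, x) : P4)) := by fun_prop
  have hcs := cs (μ := volume.restrict (Icc s t)) (f := fun τ => ‖fderiv ℝ G (τ, x)‖ₑ)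
    (g := fun _ => (1 : ENNReal)) (((measurable_fderiv ℝ G).comp hmeasline).enorm.aemeasurable)
    aemeasurable_const
  simp only [mul_one, one_pow, lintegral_const, Measure.restrict_apply MeasurableSet.univ,
    univ_inter, one_mul, Real.volume_Icc] at hcs
  have hE1 : ∫⁻ τ in Icc s t, ‖fderiv ℝ G (τ, x)‖ₑ ^ 2 ≤ E := by
    apply lintegral_mono_set
    intro τ hτ
    exact hsub ⟨hs.1.trans hτ.1, hτ.2⟩
  have hone : 1 ≤ E * ENNReal.ofReal (t - s) := by
    have h7 : (1 : ENNReal) ≤ E ^ (1/2:ℝ) * ENNReal.ofReal (t - s) ^ (1/2:ℝ) :=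
      hbig.le.trans (hcs.trans (by gcongr))
    rw [← ENNReal.mul_rpow_of_nonneg _ _ (by norm_num)] at h7
    by_contra hc
    push Not at hc
    have h8 : (E * ENNReal.ofReal (t - s)) ^ (1/2:ℝ) < 1 :=
      ENNReal.rpow_lt_one hc (by norm_num)
    exact absurd h7 (not_le.mpr h8)
  calc ENNReal.ofReal (QQ Psi (t, x)) = ENNReal.ofReal (QQ Psi (t, x)) * 1 := (mul_one _).symm
    _ ≤ ENNReal.ofReal (QQ Psi (t, x)) * (E * ENNReal.ofReal (t - s)) := by gcongr
    _ = ENNReal.ofReal (QQ Psi (t, x) * (t - s)) * E := by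
        rw [ENNReal.ofReal_mul hq.le]; ring
    _ ≤ ENNReal.ofReal (3 * R * A) * E := by
        apply mul_le_mul_left
        apply ENNReal.ofReal_le_ofReal
        have : QQ Psi (t, x) * (t - s) = (QQ Psi (t, x) / A * (t - s)) * A := by
          field_simp
        rw [this]
        gcongr
    _ ≤ _ := le_add_self

end Vale.Agent.P354z
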