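import Vale.Agent.P354z.O2

set_option maxSynthPendingDepth 3

open Set MeasureTheory Filter Topology

namespace Vale.Agent.P354z

open Vale.Agent.P354w Vale.Agent.P354x PreHyp CoreHyp

variable {K : Coef} {G : P4 → P4 →L[ℝ] P4 →L[ℝ] ℝ} {Psi : P4 → P4} {V U : Set P4}
    {C R : ℝ} {cv cw cu : ℝ → ℝ} {t0 r : ℝ} {f : P3 → ℝ}

lemma one_le_C (h : PreHyp K G Psi V U C R cv cw cu t0 r f) : 1 ≤ C := by
  have : ((t0, 0) : P4) ∈ V := h.memV 0 (by simpa only [Metric.mem_ball, dist_self] using h.r_pos) t0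
    ⟨le_refl _, h.t0f 0 (by simpa only [Metric.mem_ball, dist_self] using h.r_pos)⟩
  exact (h.pt this).bd.one_le

lemma exists_small_k (h : PreHyp K G Psi V U C R cv cw cu t0 r f) (hR : 0 < R) {ε : ENNReal}
    (hε : 0 < ε) : ∃ v1 < 0, -R ≤ v1 ∧
      ∫⁻ v in Ico v1 0, ENNReal.ofReal (1 + cv v + cw v + C) ≤ ε := by
  apply exists_small hR _ hε
  have hC := one_le_C h
  have h1 : ∀ v, ENNReal.ofReal (1 + cv v + cw v + C) ≤
      ENNReal.ofReal (1 + C) + ENNReal.ofReal (cv v) + ENNReal.ofReal (cw v) := by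
    intro v
    calc ENNReal.ofReal (1 + cv v + cw v + C)
        = ENNReal.ofReal ((1 + C) + cv v + cw v) := by congr 1; ring
      _ ≤ _ := (ENNReal.ofReal_add_le).trans (add_le_add_left (ENNReal.ofReal_add_le) _)
  refine ne_top_of_le_ne_top ?_ (lintegral_mono h1)
  rw [lintegral_add_right _ h.cw_meas.ennreal_ofReal, lintegral_add_right _
    h.cv_meas.ennreal_ofReal, lintegral_const]
  refine ENNReal.add_ne_top.mpr ⟨ENNReal.add_ne_top.mpr ⟨?_, h.cv_int⟩, h.cw_int⟩
  apply ENNReal.mul_ne_top ENNReal.ofReal_ne_top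
  simp only [MeasurableSet.univ, Measure.restrict_apply, univ_inter, Real.volume_Ico, sub_neg_eq_add, zero_add, ne_eq, ENNReal.ofReal_ne_top, not_false_eq_true]

/-- On a generator of finite energy either `QQ` is eventually larger than `κ`, or it is
bounded. -/
theorem dich (h : CoreHyp K G Psi V U C R cv cw cu t0 r f) (hw : ∀ y ∈ U, PtW K y C)
    (hcu : ∀ u, cu u ≤ C) {y : P3} {v0 κ : ℝ} (hv0 : v0 < 0) (hκ : 0 < κ)
    (hvlo : ∀ x : P3, ‖x‖ ≤ r / 2 → (Psi (t0, x)).2.1 < v0)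
    (hin : ∀ v ∈ Ico v0 0, ∃ z ∈ DD t0 r f, Psi z = ins v y ∧ ‖z.2‖ ≤ r / 4)
    (hL : Lam G Psi V t0 r f y ≠ ⊤) :
    (∃ v1 ∈ Ico v0 0, ∀ v ∈ Ico v1 0, κ ≤ QQ Psi (Phi Psi V (ins v y))) ∨
    ∃ n : ℕ, ∀ v ∈ Ico v0 0, QQ Psi (Phi Psi V (ins v y)) ≤ n := by
  have hr := h.r_pos
  have hpre := h.toPreHyp
  have hC := one_le_C hpre
  have hC0 : 0 < C := by linarith
  have hR : 0 < R := by
    obtain ⟨z, hz, hzy, _⟩ := hin v0 ⟨le_refl _, hv0⟩
    obtain ⟨_, h1, h2, _⟩ := h.U_sub _ (h.maps (h.DD_sub hz))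
    linarith only [h1, h2]
  set M : ℝ := (Lam G Psi V t0 r f y).toReal + 1 with hM
  have hM0 : 0 < M := by
    have : 0 ≤ (Lam G Psi V t0 r f y).toReal := ENNReal.toReal_nonneg
    linarith
  have hyM : Lam G Psi V t0 r f y ≤ ENNReal.ofReal M := by
    rw [← ENNReal.ofReal_toReal hL]
    apply ENNReal.ofReal_le_ofReal
    linarith
  set lg := Real.log 2 with hlg
  have hlg0 : 0 < lg := Real.log_pos (by norm_num)
  set D : ℝ := 800 * C ^ 12 with hD
  have hD0 : 0 < D := by positivity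
  obtain ⟨va, hva0, _, hva⟩ := exists_small_k hpre hR (ε := ENNReal.ofReal (lg / (4 * D)))
    (by simpa only [ENNReal.ofReal_pos] using by positivity)
  set E : ℝ := (lg / (4 * D * (2 * κ))) ^ 2 / M with hE
  have hE0 : 0 < E := by positivity
  set F : ℝ := r / 8 / (40 * C ^ 7 * κ) with hF
  have hF0 : 0 < F := by positivity
  set v1 : ℝ := max (max v0 va) (max (-E) (-F)) with hv1
  have hv10 : v1 < 0 := max_lt (max_lt (by linarith only [hv0]) hva0) (max_lt (by linarith only [hE0]) (by linarith only [hF0]))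
  have g1 : v0 ≤ v1 := (le_max_left _ _).trans (le_max_left _ _)
  have g2 : va ≤ v1 := (le_max_right _ _).trans (le_max_left _ _)
  have g3 : -E ≤ v1 := (le_max_left _ _).trans (le_max_right _ _)
  have g4 : -F ≤ v1 := (le_max_right _ _).trans (le_max_right _ _)
  by_cases hcase : ∃ v' ∈ Ico v1 0, QQ Psi (Phi Psi V (ins v' y)) ≤ κ
  swap
  · push Not at hcase
    exact Or.inl ⟨v1, ⟨g1, hv10⟩, fun v hv => (hcase v hv).le⟩
  right
  obtain ⟨v', hv', hv'q⟩ := hcase
  obtain ⟨z, hz, hzy, hzn⟩ := hin v' ⟨g1.trans hv'.1, hv'.2⟩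
  have hzP : Phi Psi V (ins v' y) = z := by rw [← hzy]; exact h.Phi_left (h.DD_sub hz)
  rw [hzP] at hv'q
  have hLh := lintegral_Lh_le hpre hv'.2 hyM hM0.le
  have e1 : -v' ≤ E := by have := hv'.1; linarith only [g3, this]
  have e2 : -v' ≤ F := by have := hv'.1; linarith only [g4, this]
  have hsq : Real.sqrt (M * -v') ≤ lg / (4 * D * (2 * κ)) := by
    rw [Real.sqrt_le_left (by positivity)]
    calc M * -v' ≤ M * E := by gcongr
      _ = (lg / (4 * D * (2 * κ))) ^ 2 := by rw [hE]; field_simp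
  have hres := gen_cont h hw (y := y) (v0 := v') (κ := κ) (r1 := r/4) (r2 := r/2)
    (by linarith only [hr]) hv'.2 hκ
    (fun x hx => by
      have := hvlo x hx
      have := hv'.1
      linarith)
    ⟨z, hz, hzy, hzn, hv'q⟩
    (by
      have : 40 * C ^ 7 * κ * -v' ≤ 40 * C ^ 7 * κ * F := by gcongr
      have e3 : 40 * C ^ 7 * κ * F = r / 8 := by rw [hF]; field_simp
      linarith only [hr, this, e3])
    (by
      have i1 : ∫⁻ v in Ico v' 0, ENNReal.ofReal (1 + cv v + cw v + cu y.2.1) ≤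
          ENNReal.ofReal (lg / (4 * D)) := by
        refine le_trans ?_ hva
        calc ∫⁻ v in Ico v' 0, ENNReal.ofReal (1 + cv v + cw v + cu y.2.1)
            ≤ ∫⁻ v in Ico v' 0, ENNReal.ofReal (1 + cv v + cw v + C) := by
              apply lintegral_mono
              intro v
              apply ENNReal.ofReal_le_ofReal
              have := hcu y.2.1
              linarith only [this]
          _ ≤ _ := by
              apply lintegral_mono_set
              apply Ico_subset_Ico_left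
              have := hv'.1
              linarith only [g2, this]
      have i2 : ENNReal.ofReal (2 * κ) * ∫⁻ v in Ico v' 0, Lh G Psi V t0 r f (ins v y) ≤
          ENNReal.ofReal (lg / (4 * D)) := by
        calc ENNReal.ofReal (2 * κ) * ∫⁻ v in Ico v' 0, Lh G Psi V t0 r f (ins v y)
            ≤ ENNReal.ofReal (2 * κ) * ENNReal.ofReal (lg / (4 * D * (2 * κ))) := by
              gcongr
              exact hLh.trans (ENNReal.ofReal_le_ofReal hsq)
          _ = ENNReal.ofReal (lg / (4 * D)) := by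
              rw [← ENNReal.ofReal_mul (by positivity)]
              congr 1
              field_simp
      calc ENNReal.ofReal D * ((∫⁻ v in Ico v' 0, ENNReal.ofReal
            (1 + cv v + cw v + cu y.2.1)) + ENNReal.ofReal (2 * κ) *
              ∫⁻ v in Ico v' 0, Lh G Psi V t0 r f (ins v y))
          ≤ ENNReal.ofReal D * (ENNReal.ofReal (lg / (4 * D)) +
              ENNReal.ofReal (lg / (4 * D))) := by gcongr
        _ = ENNReal.ofReal (lg / 2) := by
            rw [← ENNReal.ofReal_add (by positivity) (by positivity),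
              ← ENNReal.ofReal_mul hD0.le]
            congr 1
            field_simp
            ring
        _ < ENNReal.ofReal lg := (ENNReal.ofReal_lt_ofReal_iff hlg0).mpr (by linarith only [hlg0]))
  -- the compact part
  have hcont : ContinuousOn (fun v => QQ Psi (Phi Psi V (ins v y))) (Icc v0 v') := by
    intro v hv
    obtain ⟨z, hz, hzy, _⟩ := hin v ⟨hv.1, lt_of_le_of_lt hv.2 hv'.2⟩
    exact (hasDerivAt_QQ hpre (h.DD_sub hz) hzy).continuousAt.continuousWithinAt
  obtain ⟨M1, hM1⟩ := isCompact_Icc.exists_bound_of_continuousOn hcont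
  obtain ⟨n, hn⟩ := exists_nat_ge (max M1 (2 * κ))
  refine ⟨n, ?_⟩
  intro v hv
  rcases le_total v v' with hvv | hvv
  · have h1 := hM1 v ⟨hv.1, hvv⟩
    rw [Real.norm_eq_abs] at h1
    exact ((le_abs_self _).trans h1).trans ((le_max_left _ _).trans hn)
  · obtain ⟨z', hz', hz'y, _, hz'q⟩ := hres v ⟨hvv, hv.2⟩
    have : Phi Psi V (ins v y) = z' := by rw [← hz'y]; exact h.Phi_left (h.DD_sub hz')
    rw [this]
    exact hz'q.trans ((le_max_right _ _).trans hn)

/-! ### Measurability -/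

lemma contOn_QP (h : PreHyp K G Psi V U C R cv cw cu t0 r f) {O : Set P3} {v : ℝ}
    (hin : ∀ y ∈ O, ins v y ∈ Psi '' DD t0 r f) :
    ContinuousOn (fun y => QQ Psi (Phi Psi V (ins v y))) O := by
  intro y hy
  obtain ⟨z, hz, hzy⟩ := hin y hy
  have hzV := h.DD_sub hz
  have h1 : ContinuousAt (Phi Psi V) (ins v y) := by
    rw [← hzy]; exact (h.contDiffAt_Phi hzV).continuousAt
  have h2 : ContinuousAt (QQ Psi) (Phi Psi V (ins v y)) := by
    rw [← hzy, h.Phi_left hzV]; exact contAt_QQ h hzV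
  have h3 : ContinuousAt (fun y : P3 => ins v y) y := by
    have : Continuous (fun y : P3 => ins v y) := by unfold ins; fun_prop
    exact this.continuousAt
  have h4 : ContinuousAt (fun y : P3 => Phi Psi V (ins v y)) y :=
    ContinuousAt.comp (g := Phi Psi V) (f := fun y : P3 => ins v y) h1 h3
  exact (ContinuousAt.comp (g := QQ Psi) (f := fun y : P3 => Phi Psi V (ins v y)) h2
    h4).continuousWithinAt

/-- the points of `O` above which `QQ` stays at most `κ` -/
def Yk (Psi : P4 → P4) (V : Set P4) (O : Set P3) (v0 κ : ℝ) : Set P3 :=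
  {y | y ∈ O ∧ ∀ v ∈ Ico v0 0, QQ Psi (Phi Psi V (ins v y)) ≤ κ}

/-- the points of `O` above which `QQ` stays at least `κ` -/
def Bk (Psi : P4 → P4) (V : Set P4) (O : Set P3) (v0 κ : ℝ) : Set P3 :=
  {y | y ∈ O ∧ ∀ v ∈ Ico v0 0, κ ≤ QQ Psi (Phi Psi V (ins v y))}

lemma meas_Yk (h : PreHyp K G Psi V U C R cv cw cu t0 r f) {O : Set P3} (hO : IsOpen O) {v0 : ℝ}
    (hin : ∀ v ∈ Ico v0 0, ∀ y ∈ O, ins v y ∈ Psi '' DD t0 r f) (κ : ℝ) :
    MeasurableSet (Yk Psi V O v0 κ) := by
  have e : Yk Psi V O v0 κ = O \ ⋃ v ∈ Ico v0 0,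
      (O ∩ (fun y => QQ Psi (Phi Psi V (ins v y))) ⁻¹' Ioi κ) := by
    ext y
    simp only [Yk, mem_setOf_eq, mem_diff, mem_iUnion, mem_inter_iff, mem_preimage, mem_Ioi,
      not_exists, not_and, not_lt]
    constructor
    · rintro ⟨h1, h2⟩
      exact ⟨h1, fun v hv _ => h2 v hv⟩
    · rintro ⟨h1, h2⟩
      exact ⟨h1, fun v hv => h2 v hv h1⟩
  rw [e]
  apply hO.measurableSet.diff
  apply IsOpen.measurableSet
  apply isOpen_biUnion
  intro v hv
  exact (contOn_QP h (hin v hv)).isOpen_inter_preimage hO isOpen_Ioi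

lemma meas_Bk (h : PreHyp K G Psi V U C R cv cw cu t0 r f) {O : Set P3} (hO : IsOpen O) {v0 : ℝ}
    (hin : ∀ v ∈ Ico v0 0, ∀ y ∈ O, ins v y ∈ Psi '' DD t0 r f) (κ : ℝ) :
    MeasurableSet (Bk Psi V O v0 κ) := by
  have e : Bk Psi V O v0 κ = O \ ⋃ v ∈ Ico v0 0,
      (O ∩ (fun y => QQ Psi (Phi Psi V (ins v y))) ⁻¹' Iio κ) := by
    ext y
    simp only [Bk, mem_setOf_eq, mem_diff, mem_iUnion, mem_inter_iff, mem_preimage, mem_Iio,
      not_exists, not_and, not_lt]
    constructor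
    · rintro ⟨h1, h2⟩
      exact ⟨h1, fun v hv _ => h2 v hv⟩
    · rintro ⟨h1, h2⟩
      exact ⟨h1, fun v hv => h2 v hv h1⟩
  rw [e]
  apply hO.measurableSet.diff
  apply IsOpen.measurableSet
  apply isOpen_biUnion
  intro v hv
  exact (contOn_QP h (hin v hv)).isOpen_inter_preimage hO isOpen_Iio

end Vale.Agent.P354z
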