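import Vale.Agent.P354z.O3

set_option maxSynthPendingDepth 3

open Set MeasureTheory Filter Topology

namespace Vale.Agent.P354z

open Vale.Agent.P354w Vale.Agent.P354x PreHyp CoreHyp

variable {K : Coef} {G : P4 → P4 →L[ℝ] P4 →L[ℝ] ℝ} {Psi : P4 → P4} {V U : Set P4}
    {C R : ℝ} {cv cw cu : ℝ → ℝ} {t0 r : ℝ} {f : P3 → ℝ}

/-- the energy of a vertical line -/
noncomputable def En (G : P4 → P4 →L[ℝ] P4 →L[ℝ] ℝ) (t0 r : ℝ) (f : P3 → ℝ) (x : P3) : ENNReal :=
  ∫⁻ t : ℝ, (DD t0 r f).indicator (fun z => ‖fderiv ℝ G z‖ₑ ^ 2) (t, x)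

lemma measurable_EnF (h : PreHyp K G Psi V U C R cv cw cu t0 r f) :
    Measurable ((DD t0 r f).indicator (fun z => ‖fderiv ℝ G z‖ₑ ^ 2)) :=
  (((measurable_fderiv ℝ G).enorm).pow_const 2).indicator h.measDD

lemma measurable_En (h : PreHyp K G Psi V U C R cv cw cu t0 r f) : Measurable (En G t0 r f) :=
  (measurable_EnF h).lintegral_prod_left'

lemma En_eq {x : P3} (hx : x ∈ Metric.ball (0 : P3) r) :
    ∫⁻ t in Ico t0 (f x), ‖fderiv ℝ G (t, x)‖ₑ ^ 2 = En G t0 r f x := by
  rw [setLIntegral_congr (Ioo_ae_eq_Ico (μ := volume) (a := t0) (b := f x)).symm,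
      ← lintegral_indicator measurableSet_Ioo]
  apply lintegral_congr
  intro t
  by_cases ht : t ∈ Ioo t0 (f x)
  · rw [indicator_of_mem ht, indicator_of_mem (show ((t, x) : P4) ∈ DD t0 r f from
      ⟨hx, ht.1, ht.2⟩)]
  · rw [indicator_of_notMem ht, indicator_of_notMem]
    rintro ⟨_, h1, h2⟩
    exact ht ⟨h1, h2⟩

lemma lintegral_En (h : PreHyp K G Psi V U C R cv cw cu t0 r f) :
    ∫⁻ x, En G t0 r f x ≠ ⊤ := by
  have h1 := h.L2
  rw [← lintegral_indicator h.measDD, Measure.volume_eq_prod,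
    lintegral_prod_symm _ (measurable_EnF h).aemeasurable] at h1
  exact h1

/-- bad generators occupy a small part of the slices -/
lemma vol_Bk (h : CoreHyp K G Psi V U C R cv cw cu t0 r f) {O : Set P3} (hO : IsOpen O)
    {α β v1 : ℝ} (hQ : ∀ z ∈ DD t0 r f, ‖z.2‖ ≤ r / 4 → ENNReal.ofReal (QQ Psi z) ≤
      ENNReal.ofReal α + ENNReal.ofReal β * En G t0 r f z.2) (hv1 : v1 < 0) (n : ℕ)
    (hin : ∀ v ∈ Ico v1 0, ∀ y ∈ O, ∃ z ∈ DD t0 r f, Psi z = ins v y ∧ ‖z.2‖ ≤ r / 4) :
    volume (Bk Psi V O v1 ((n : ℝ) + 1)) ≤ ENNReal.ofReal (2 * C ^ 3) *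
      ∫⁻ x in NN Psi t0 r f n, (ENNReal.ofReal α + ENNReal.ofReal β * En G t0 r f x) := by
  classical
  have hpre := h.toPreHyp
  have hC := one_le_C hpre
  have hC0 : 0 < C := by linarith
  have himg : ∀ v ∈ Ico v1 0, ∀ y ∈ O, ins v y ∈ Psi '' DD t0 r f := by
    intro v hv y hy
    obtain ⟨z, hz, hzy, _⟩ := hin v hv y hy
    exact ⟨z, hz, hzy⟩
  set B := Bk Psi V O v1 ((n : ℝ) + 1) with hB
  have hBm : MeasurableSet B := meas_Bk hpre hO himg _
  set J := ∫⁻ x in NN Psi t0 r f n, (ENNReal.ofReal α + ENNReal.ofReal β * En G t0 r f x) with hJ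
  set P : Set P4 := {x | x.2.1 ∈ Ico v1 0 ∧ ((x.1, x.2.2) : P3) ∈ B} with hP
  have hPm : MeasurableSet P := by
    have m1 : Measurable (fun x : P4 => x.2.1) := by fun_prop
    have m2 : Measurable (fun x : P4 => ((x.1, x.2.2) : P3)) := by fun_prop
    exact (m1 measurableSet_Ico).inter (m2 hBm)
  have hvolP : volume P = volume B * ENNReal.ofReal (-v1) := by
    rw [← lintegral_indicator_one hPm, lintegral_ins (measurable_one.indicator hPm)]
    have e : ∀ v : ℝ, ∫⁻ y : P3, P.indicator (1 : P4 → ENNReal) (ins v y) =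
        (Ico v1 0).indicator (fun _ => volume B) v := by
      intro v
      by_cases hv : v ∈ Ico v1 0
      · rw [indicator_of_mem hv, ← lintegral_indicator_one hBm]
        apply lintegral_congr
        intro y
        by_cases hy : y ∈ B
        · rw [indicator_of_mem hy, indicator_of_mem (show ins v y ∈ P from ⟨hv, hy⟩)]
          rfl
        · rw [indicator_of_notMem hy, indicator_of_notMem (fun hh : ins v y ∈ P => hy hh.2)]
      · rw [indicator_of_notMem hv]
        have : ∀ y : P3, P.indicator (1 : P4 → ENNReal) (ins v y) = 0 := by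
          intro y
          exact indicator_of_notMem (fun hh : ins v y ∈ P => hv hh.1) _
        simp only [this, lintegral_const, zero_mul]
    simp only [e]
    rw [lintegral_indicator measurableSet_Ico, lintegral_const]
    simp only [MeasurableSet.univ, Measure.restrict_apply, univ_inter, Real.volume_Ico, zero_sub]
  -- the preimage
  set A : Set P4 := DD t0 r f ∩ Psi ⁻¹' P with hA
  have hAm : MeasurableSet A := by
    have h1 : Measurable ((DD t0 r f).piecewise Psi (fun _ => (0 : P4))) :=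
      (h.iso.smooth.continuousOn.mono h.DD_sub).measurable_piecewise continuousOn_const h.measDD
    have e : A = DD t0 r f ∩ ((DD t0 r f).piecewise Psi (fun _ => (0 : P4))) ⁻¹' P := by
      ext z
      constructor
      · rintro ⟨a1, a2⟩
        refine ⟨a1, ?_⟩
        rw [mem_preimage, piecewise_eq_of_mem _ _ _ a1]
        exact a2
      · rintro ⟨a1, a2⟩
        rw [mem_preimage, piecewise_eq_of_mem _ _ _ a1] at a2
        exact ⟨a1, a2⟩
    rw [e]
    exact h.measDD.inter (h1 hPm)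
  have hAD : A ⊆ DD t0 r f := inter_subset_left
  have hPA : P ⊆ Psi '' A := by
    rintro x ⟨hx1, hx2⟩
    obtain ⟨z, hz, hzy, _⟩ := hin x.2.1 hx1 _ hx2.1
    have e : Psi z = x := hzy
    exact ⟨z, ⟨hz, by rw [mem_preimage, e]; exact ⟨hx1, hx2⟩⟩, e⟩
  have u1 : volume P ≤ ENNReal.ofReal C * volume A := by
    have e := lintegral_tr hpre (fun _ => (1:ENNReal)) hAm hAD
    simp only [mul_one, lintegral_const, Measure.restrict_apply MeasurableSet.univ, univ_inter,
      one_mul] at e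
    refine (measure_mono hPA).trans ?_
    rw [e]
    calc ∫⁻ z in A, ENNReal.ofReal |(fderiv ℝ Psi z).det| ≤ ∫⁻ _ in A, ENNReal.ofReal C := by
          apply setLIntegral_mono' hAm
          intro z hz
          exact ENNReal.ofReal_le_ofReal (h.det_hi z (h.DD_sub hz.1))
      _ = _ := by simp only [lintegral_const, MeasurableSet.univ, Measure.restrict_apply, univ_inter]
  -- the lines
  have hfact : ∀ z ∈ A, z.2 ∈ NN Psi t0 r f n ∧ ‖z.2‖ ≤ r / 4 ∧ (Psi z).2.1 ∈ Ico v1 0 := by
    rintro z ⟨hz, hz1, hz2⟩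
    obtain ⟨z', hz', hz'y, hz'n⟩ := hin _ hz1 _ hz2.1
    have e : z' = z := h.inj (h.DD_sub hz') (h.DD_sub hz) (by rw [hz'y]; rfl)
    refine ⟨?_, by rw [← e]; exact hz'n, hz1⟩
    by_contra hc
    obtain ⟨c1, c2⟩ := not_NN hz hc
    have h3 := hz2.2 _ hz1
    have e2 : Phi Psi V (ins (Psi z).2.1 ((Psi z).1, (Psi z).2.2)) = z := h.Phi_left (h.DD_sub hz)
    rw [e2] at h3
    unfold QQ at h3
    linarith only [c1, c2, h3]
  have hptw : ∀ x ∈ Metric.ball (0 : P3) r, ∀ t ∈ Ioo t0 (f x),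
      A.indicator (fun _ => (1:ENNReal)) (t, x) ≤
      (NN Psi t0 r f n).indicator (fun x => ENNReal.ofReal (2 * C ^ 2) *
        (ENNReal.ofReal α + ENNReal.ofReal β * En G t0 r f x)) x *
      (ENNReal.ofReal (fderiv ℝ Psi (t, x) e1).2.1 *
        (Ico v1 0).indicator (fun _ => (1:ENNReal)) (Psi (t, x)).2.1) := by
    intro x hx t ht
    by_cases hz : ((t, x) : P4) ∈ A
    · obtain ⟨f1, f2, f3⟩ := hfact _ hz
      have hzV := h.DD_sub hz.1
      rw [indicator_of_mem hz, indicator_of_mem (show x ∈ NN Psi t0 r f n from f1),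
        indicator_of_mem f3, mul_one]
      have hb : 0 < (fderiv ℝ Psi (t, x) e1).2.1 := h.pos _ hzV
      obtain ⟨_, ha, hab⟩ := (h.pt hzV).sq_le
      have hab' : (1:ℝ) ≤ 2 * C ^ 2 * QQ Psi (t, x) * (fderiv ℝ Psi (t, x) e1).2.1 := by
        have hle : (fderiv ℝ Psi (t, x) e1).2.2.1 ≤ QQ Psi (t, x) := by
          unfold QQ; linarith only [hb]
        calc (1:ℝ) ≤ 2 * C ^ 2 * ((fderiv ℝ Psi (t, x) e1).2.2.1 *
              (fderiv ℝ Psi (t, x) e1).2.1) := hab
          _ ≤ 2 * C ^ 2 * (QQ Psi (t, x) * (fderiv ℝ Psi (t, x) e1).2.1) := by gcongr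
          _ = _ := by ring
      have hq := QQ_pos hpre hzV
      calc (1:ENNReal) = ENNReal.ofReal 1 := ENNReal.ofReal_one.symm
        _ ≤ ENNReal.ofReal (2 * C ^ 2 * QQ Psi (t, x) * (fderiv ℝ Psi (t, x) e1).2.1) :=
            ENNReal.ofReal_le_ofReal hab'
        _ = ENNReal.ofReal (2 * C ^ 2) * ENNReal.ofReal (QQ Psi (t, x)) *
            ENNReal.ofReal (fderiv ℝ Psi (t, x) e1).2.1 := by
            rw [ENNReal.ofReal_mul (by positivity), ENNReal.ofReal_mul (by positivity)]
        _ ≤ _ := by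
            gcongr
            exact hQ _ hz.1 f2
    · rw [indicator_of_notMem hz]
      exact bot_le
  have hvR : ∀ z ∈ V, (Psi z).2.1 ∈ Ico (-R) 0 := by
    intro z hz
    obtain ⟨_, h1, h2, _⟩ := h.U_sub _ (h.maps hz)
    exact ⟨h1, h2⟩
  have u2 : volume A ≤ ENNReal.ofReal (2 * C ^ 2) * J * ENNReal.ofReal (-v1) := by
    have hm1 : Measurable (fun x => ENNReal.ofReal (2 * C ^ 2) *
        (ENNReal.ofReal α + ENNReal.ofReal β * En G t0 r f x)) := by
      have := measurable_En hpre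
      fun_prop
    calc volume A = ∫⁻ z in DD t0 r f, A.indicator (fun _ => (1:ENNReal)) z := by
          rw [lintegral_indicator hAm, Measure.restrict_restrict hAm,
            inter_eq_self_of_subset_left hAD]
          simp only [lintegral_const, MeasurableSet.univ, Measure.restrict_apply, univ_inter, one_mul]
      _ = ∫⁻ x in Metric.ball (0 : P3) r, ∫⁻ t in Ioo t0 (f x),
            A.indicator (fun _ => (1:ENNReal)) (t, x) :=
          h.lintegral_DD (measurable_const.indicator hAm).aemeasurable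
      _ ≤ ∫⁻ x in Metric.ball (0 : P3) r, (NN Psi t0 r f n).indicator
            (fun x => ENNReal.ofReal (2 * C ^ 2) *
              (ENNReal.ofReal α + ENNReal.ofReal β * En G t0 r f x)) x *
            ENNReal.ofReal (-v1) := by
          apply setLIntegral_mono' Metric.isOpen_ball.measurableSet
          intro x hx
          refine (setLIntegral_mono' measurableSet_Ioo (hptw x hx)).trans ?_
          have hline : ∀ s ∈ Ioo t0 (f x), ((s, x) : P4) ∈ V :=
            fun s hs => h.memV x hx s ⟨hs.1.le, hs.2⟩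
          have hv : ∀ s ∈ Ioo t0 (f x), HasDerivAt (fun s => (Psi (s, x)).2.1)
              (fderiv ℝ Psi (s, x) e1).2.1 s :=
            fun s hs => (h.hasDerivAt_line (hline s hs)).snd.fst
          have c1 : ContinuousOn (fun s : ℝ => (fderiv ℝ Psi (s, x) e1).2.1) (Ioo t0 (f x)) := by
            intro s hs
            exact ((h.hasDerivAt_line2 (hline s hs)).continuousAt.snd.fst).continuousWithinAt
          have c2 : ContinuousOn (fun s : ℝ => (Psi (s, x)).2.1) (Ioo t0 (f x)) :=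
            fun s hs => (hv s hs).continuousAt.continuousWithinAt
          have m3 : Measurable ((Ico v1 0).indicator (fun _ => (1:ENNReal))) :=
            measurable_const.indicator measurableSet_Ico
          have m4 : AEMeasurable (fun s : ℝ => ENNReal.ofReal (fderiv ℝ Psi (s, x) e1).2.1 *
              (Ico v1 0).indicator (fun _ => (1:ENNReal)) (Psi (s, x)).2.1)
              (volume.restrict (Ioo t0 (f x))) :=
            (c1.aemeasurable measurableSet_Ioo).ennreal_ofReal.mul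
              (m3.comp_aemeasurable (c2.aemeasurable measurableSet_Ioo))
          rw [lintegral_const_mul'' _ m4]
          gcongr
          refine (subst_le (φ := fun s => (Psi (s, x)).2.1) measurableSet_Ioo ordConnected_Ioo hv
            (fun s hs => h.pos _ (hline s hs)) (S := Ico (-R) 0)
            (fun s hs => hvR _ (hline s hs))
            ((Ico v1 0).indicator (fun _ => (1:ENNReal)))).trans ?_
          refine (setLIntegral_le_lintegral _ _).trans ?_
          rw [lintegral_indicator measurableSet_Ico]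
          simp only [lintegral_const, MeasurableSet.univ, Measure.restrict_apply, univ_inter, Real.volume_Ico, zero_sub, one_mul, Std.le_refl]
      _ ≤ ∫⁻ x, (NN Psi t0 r f n).indicator (fun x => ENNReal.ofReal (2 * C ^ 2) *
              (ENNReal.ofReal α + ENNReal.ofReal β * En G t0 r f x)) x *
            ENNReal.ofReal (-v1) := setLIntegral_le_lintegral _ _
      _ = ENNReal.ofReal (2 * C ^ 2) * J * ENNReal.ofReal (-v1) := by
          rw [lintegral_mul_const' _ _ ENNReal.ofReal_ne_top, lintegral_indicator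
            h.isOpen_NN.measurableSet, lintegral_const_mul' _ _ ENNReal.ofReal_ne_top]
  have hfin : volume B * ENNReal.ofReal (-v1) ≤
      (ENNReal.ofReal (2 * C ^ 3) * J) * ENNReal.ofReal (-v1) := by
    rw [← hvolP]
    refine u1.trans ?_
    calc ENNReal.ofReal C * volume A ≤ ENNReal.ofReal C *
          (ENNReal.ofReal (2 * C ^ 2) * J * ENNReal.ofReal (-v1)) := by gcongr
      _ = (ENNReal.ofReal (C * (2 * C ^ 2)) * J) * ENNReal.ofReal (-v1) := by
          rw [ENNReal.ofReal_mul hC0.le]; ring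
      _ = _ := by
          congr 3
          ring
  have h0 : ENNReal.ofReal (-v1) ≠ 0 := by
    rw [ne_eq, ENNReal.ofReal_eq_zero, not_le]; linarith only [hv1]
  exact (ENNReal.mul_le_mul_iff_left h0 ENNReal.ofReal_ne_top).mp hfin

lemma exists_Q0 (h : CoreHyp K G Psi V U C R cv cw cu t0 r f) :
    ∃ κ0 : ℝ, ∀ x : P3, ‖x‖ ≤ r / 4 → QQ Psi (t0, x) ≤ κ0 := by
  have hr := h.r_pos
  have hpre := h.toPreHyp
  have hmem0 : ∀ x : P3, ‖x‖ ≤ r / 4 → ((t0, x) : P4) ∈ V := by
    intro x hx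
    have hxb : x ∈ Metric.ball (0 : P3) r := by
      rw [mem_ball_zero_iff]; linarith only [hr, hx]
    exact h.memV x hxb t0 ⟨le_refl _, h.t0f x hxb⟩
  have hcomp : IsCompact (Metric.closedBall (0 : P3) (r/4)) := isCompact_closedBall _ _
  have hcont : ContinuousOn (fun x : P3 => QQ Psi (t0, x)) (Metric.closedBall (0 : P3) (r/4)) := by
    intro x hx
    rw [mem_closedBall_zero_iff] at hx
    have h1 : ContinuousAt (QQ Psi) (t0, x) := contAt_QQ hpre (hmem0 x hx)
    have h2 : ContinuousAt (fun x : P3 => ((t0, x) : P4)) x := by fun_prop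
    exact (ContinuousAt.comp (g := QQ Psi) (f := fun x : P3 => ((t0, x) : P4)) h1
      h2).continuousWithinAt
  obtain ⟨M, hM⟩ := hcomp.exists_bound_of_continuousOn hcont
  refine ⟨M, fun x hx => ?_⟩
  have := hM x (by rwa [mem_closedBall_zero_iff])
  rw [Real.norm_eq_abs] at this
  exact (le_abs_self _).trans this

/-- **Almost every generator over an open set of the front is good.** -/
theorem ae_bdd (h : CoreHyp K G Psi V U C R cv cw cu t0 r f) (hw : ∀ y ∈ U, PtW K y C)
    (hcu : ∀ u, cu u ≤ C) {O : Set P3} (hO : IsOpen O) {v0 : ℝ} (hv0 : v0 < 0)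
    (hvlo : ∀ x : P3, ‖x‖ ≤ r / 2 → (Psi (t0, x)).2.1 < v0)
    (hin : ∀ y ∈ O, ∀ v ∈ Ico v0 0, ∃ z ∈ DD t0 r f, Psi z = ins v y ∧ ‖z.2‖ ≤ r / 4) :
    ∀ᵐ y : P3, y ∈ O → ∃ n : ℕ, ∀ v ∈ Ico v0 0, QQ Psi (Phi Psi V (ins v y)) ≤ n := by
  have hpre := h.toPreHyp
  have hr := h.r_pos
  obtain ⟨κ0, hκ0⟩ := exists_Q0 h
  obtain ⟨α, β, hQ⟩ : ∃ α β : ℝ, ∀ z ∈ DD t0 r f, ‖z.2‖ ≤ r / 4 → ENNReal.ofReal (QQ Psi z) ≤
      ENNReal.ofReal α + ENNReal.ofReal β * En G t0 r f z.2 := by
    refine ⟨κ0 * Real.exp (100 * C ^ 5 * (1 + (W0 R cv cw cu).toReal) + 1),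
      3 * R * Real.exp (100 * C ^ 5 * (1 + (W0 R cv cw cu).toReal) + 1), fun z hz hzn => ?_⟩
    rw [← En_eq hz.1]
    exact sup_line hpre (x := z.2) (t := z.1) hz.1 (hκ0 _ hzn) ⟨hz.2.1.le, hz.2.2⟩
  set Bad : Set P3 := {y | y ∈ O ∧ Lam G Psi V t0 r f y ≠ ⊤ ∧
    ¬ ∃ n : ℕ, ∀ v ∈ Ico v0 0, QQ Psi (Phi Psi V (ins v y)) ≤ n} with hBad
  set vm : ℕ → ℝ := fun m => max v0 (-1 / ((m:ℝ) + 1)) with hvm
  have hvm0 : ∀ m, vm m < 0 := by
    intro m
    apply max_lt hv0
    have : (0:ℝ) < (m:ℝ) + 1 := by positivity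
    exact div_neg_of_neg_of_pos (by norm_num) this
  have hvml : ∀ m, v0 ≤ vm m := fun m => le_max_left _ _
  have hmono : Monotone vm := by
    intro a b hab
    apply max_le_max (le_refl _)
    have h1 : (0:ℝ) < (a:ℝ) + 1 := by positivity
    have h2 : (a:ℝ) + 1 ≤ (b:ℝ) + 1 := by
      have : (a:ℝ) ≤ b := by exact_mod_cast hab
      linarith only [this]
    rw [neg_div, neg_div]
    apply neg_le_neg
    exact one_div_le_one_div_of_le h1 h2
  have key : ∀ n : ℕ, volume Bad ≤ ENNReal.ofReal (2 * C ^ 3) *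
      ∫⁻ x in NN Psi t0 r f n, (ENNReal.ofReal α + ENNReal.ofReal β * En G t0 r f x) := by
    intro n
    have hsub : Bad ⊆ ⋃ m : ℕ, Bk Psi V O (vm m) ((n : ℝ) + 1) := by
      rintro y ⟨hy, hyL, hyn⟩
      have hn1 : (0:ℝ) < (n:ℝ) + 1 := by positivity
      rcases dich h hw hcu hv0 hn1 hvlo (hin y hy) hyL with ⟨v1, hv1, hv1q⟩ | hb
      · obtain ⟨m, hm⟩ := exists_nat_one_div_lt (neg_pos.mpr hv1.2)
        have hle : v1 ≤ vm m := by
          refine le_trans ?_ (le_max_right _ _)
          rw [neg_div]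
          linarith
        exact mem_iUnion.mpr ⟨m, hy, fun v hv => hv1q v ⟨hle.trans hv.1, hv.2⟩⟩
      · exact absurd hb hyn
    have hmB : Monotone (fun m : ℕ => Bk Psi V O (vm m) ((n : ℝ) + 1)) := by
      rintro a b hab y ⟨hy, hyq⟩
      exact ⟨hy, fun v hv => hyq v ⟨(hmono hab).trans hv.1, hv.2⟩⟩
    refine (measure_mono hsub).trans ?_
    rw [hmB.measure_iUnion]
    apply iSup_le
    intro m
    exact vol_Bk h hO hQ (hvm0 m) n (fun v hv y hy => hin y hy v ⟨(hvml m).trans hv.1, hv.2⟩)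
  have hzero : volume Bad = 0 := by
    have hint : ∫⁻ x in Metric.ball (0 : P3) r,
        (ENNReal.ofReal α + ENNReal.ofReal β * En G t0 r f x) ≠ ⊤ := by
      rw [lintegral_add_left measurable_const, lintegral_const,
        lintegral_const_mul' _ _ ENNReal.ofReal_ne_top]
      apply ENNReal.add_ne_top.mpr
      constructor
      · apply ENNReal.mul_ne_top ENNReal.ofReal_ne_top
        rw [Measure.restrict_apply MeasurableSet.univ, univ_inter]
        exact measure_ball_lt_top.ne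
      · apply ENNReal.mul_ne_top ENNReal.ofReal_ne_top
        exact ne_top_of_le_ne_top (lintegral_En hpre) (setLIntegral_le_lintegral _ _)
    have ht : Tendsto (fun n : ℕ => ∫⁻ x in NN Psi t0 r f n,
        (ENNReal.ofReal α + ENNReal.ofReal β * En G t0 r f x)
        ∂(volume.restrict (Metric.ball (0 : P3) r))) atTop (𝓝 0) := by
      apply tendsto_setLIntegral_zero hint
      apply tendsto_of_tendsto_of_tendsto_of_le_of_le tendsto_const_nhds h.tendsto_NN
        (fun _ => bot_le)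
      intro n
      exact Measure.restrict_le_self _
    have ht2 : Tendsto (fun n : ℕ => ENNReal.ofReal (2 * C ^ 3) * ∫⁻ x in NN Psi t0 r f n,
        (ENNReal.ofReal α + ENNReal.ofReal β * En G t0 r f x)
        ∂(volume.restrict (Metric.ball (0 : P3) r))) atTop (𝓝 0) := by
      have := ENNReal.Tendsto.const_mul ht (Or.inr (ENNReal.ofReal_ne_top (r := 2 * C ^ 3)))
      rwa [mul_zero] at this
    have key2 : ∀ n : ℕ, volume Bad ≤ ENNReal.ofReal (2 * C ^ 3) * ∫⁻ x in NN Psi t0 r f n,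
        (ENNReal.ofReal α + ENNReal.ofReal β * En G t0 r f x)
        ∂(volume.restrict (Metric.ball (0 : P3) r)) := by
      intro n
      refine (key n).trans (le_of_eq ?_)
      rw [Measure.restrict_restrict h.isOpen_NN.measurableSet, inter_eq_self_of_subset_left NN_sub]
    exact le_antisymm (ge_of_tendsto' ht2 key2) bot_le
  have hLam : ∀ᵐ y : P3, Lam G Psi V t0 r f y < ⊤ :=
    ae_lt_top (measurable_Lam hpre) (lintegral_Lam hpre)
  have hBadae : ∀ᵐ y : P3, y ∉ Bad := measure_eq_zero_iff_ae_notMem.mp hzero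
  filter_upwards [hLam, hBadae] with y h1 h2 hy
  by_contra hc
  exact h2 ⟨hy, h1.ne, hc⟩

end Vale.Agent.P354z
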