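import Vale.Agent.P354z.O4

set_option maxSynthPendingDepth 3

open Set MeasureTheory Filter Topology

namespace Vale.Agent.P354z

open Vale.Agent.P354w Vale.Agent.P354x PreHyp CoreHyp

variable {K : Coef} {G : P4 → P4 →L[ℝ] P4 →L[ℝ] ℝ} {Psi : P4 → P4} {V U : Set P4}
    {C R : ℝ} {cv cw cu : ℝ → ℝ} {t0 r : ℝ} {f : P3 → ℝ}

/-- For almost every generator of an open set of the front the metric derivatives which are
comparable to a constant on balls of radius `cv ^ (-1/2)` are square integrable. -/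
theorem open_core (h : CoreHyp K G Psi V U C R cv cw cu t0 r f) (hw : ∀ y ∈ U, PtW K y C)
    (hcv : ∫⁻ v in Ico (-(2 * R)) 0, ENNReal.ofReal (cv v) ≠ ⊤)
    (hcw : ∫⁻ v in Ico (-(2 * R)) 0, ENNReal.ofReal (cw v) ≠ ⊤)
    (hcu' : ∫⁻ u in Icc (-(2 * R)) (2 * R), ENNReal.ofReal (cu u) ≠ ⊤)
    (hcu : ∀ u, cu u ≤ C) {O : Set P3} (hO : IsOpen O) {v0 : ℝ} (hv0 : v0 < 0)
    (hin : ∀ y ∈ O, ∀ v ∈ Ico v0 0, ∃ z ∈ DD t0 r f, Psi z = ins v y ∧ ‖z.2‖ ≤ r / 4) :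
    ∃ v1 ∈ Ico v0 0, ∀ᵐ y0 : P3, y0 ∈ O →
      ∀ m ρ : ℝ, 0 < m → 0 < ρ → ∃ B : ℝ → ENNReal, ∫⁻ v in Ico v1 0, B v ^ 2 ≠ ⊤ ∧
        ∀ v ∈ Ico v1 0, ∀ (j : Fin 3) (σ γ : ℝ), |σ| = 1 → 0 ≤ γ →
          (∀ y : P3, ‖y - y0‖ < ρ → cv v * ‖y - y0‖ ^ 2 < ρ → ins v y ∈ Psi '' DD t0 r f →
            |fderiv ℝ K.g11 (ins v y) (e4 K (ins v y))| ≤ m * γ ∧
            |fderiv ℝ K.g12 (ins v y) (e4 K (ins v y))| ≤ m * γ ∧
            |fderiv ℝ K.g22 (ins v y) (e4 K (ins v y))| ≤ m * γ ∧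
            γ ≤ σ * D3 K j (ins v y)) → ENNReal.ofReal γ ≤ B v := by
  have hpre := h.toPreHyp
  obtain ⟨vlo, hvlo0, _, hvlo⟩ := exists_vlo h
  set v1 : ℝ := max v0 (vlo / 2) with hv1
  have hv10 : v1 < 0 := max_lt hv0 (by linarith only [hvlo0])
  have hv01 : v0 ≤ v1 := le_max_left _ _
  have hvlo1 : ∀ x : P3, ‖x‖ ≤ r / 2 → (Psi (t0, x)).2.1 < v1 := by
    intro x hx
    have h1 := hvlo x hx
    have h2 : vlo / 2 ≤ v1 := le_max_right _ _
    linarith only [hv10, h1, h2]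
  have hin1 : ∀ y ∈ O, ∀ v ∈ Ico v1 0, ∃ z ∈ DD t0 r f, Psi z = ins v y ∧ ‖z.2‖ ≤ r / 4 :=
    fun y hy v hv => hin y hy v ⟨hv01.trans hv.1, hv.2⟩
  have himg : ∀ v ∈ Ico v1 0, ∀ y ∈ O, ins v y ∈ Psi '' DD t0 r f := by
    intro v hv y hy
    obtain ⟨z, hz, hzy, _⟩ := hin1 y hy v hv
    exact ⟨z, hz, hzy⟩
  refine ⟨v1, ⟨hv01, hv10⟩, ?_⟩
  have hY : ∀ n : ℕ, ∀ y ∈ Yk Psi V O v1 ((n:ℝ) + 1), ∀ v ∈ Ico v1 0, ∃ z ∈ DD t0 r f,
      Psi z = ins v y ∧ ‖z.2‖ ≤ r / 4 ∧ QQ Psi z ≤ (n:ℝ) + 1 := by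
    intro n y hy v hv
    obtain ⟨z, hz, hzy, hzn⟩ := hin1 y hy.1 v hv
    have hzP : Phi Psi V (ins v y) = z := by rw [← hzy]; exact h.Phi_left (h.DD_sub hz)
    have := hy.2 v hv
    rw [hzP] at this
    exact ⟨z, hz, hzy, hzn, this⟩
  have hcore := fun n : ℕ => core_Y h hcv hcw hcu' hcu (κ := (n:ℝ) + 1) (v0 := v1)
    (by have : (0:ℝ) ≤ n := Nat.cast_nonneg n
        linarith only []) hv10 (Y := Yk Psi V O v1 ((n:ℝ) + 1)) (meas_Yk hpre hO himg _) hvlo1 (hY n)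
  filter_upwards [ae_bdd h hw hcu hO hv10 hvlo1 hin1, ae_all_iff.mpr hcore] with y0 h1 h2 hy0
  obtain ⟨n, hn⟩ := h1 hy0
  exact h2 n ⟨hy0, fun v hv => (hn v hv).trans (by linarith only [])⟩

/-- For almost every generator of an open set of the front the derivative of the metric is
square integrable. -/
theorem open6 (h : CoreHyp K G Psi V U C R cv cw cu t0 r f) (hw : ∀ y ∈ U, PtW K y C)
    (hcv : ∫⁻ v in Ico (-(2 * R)) 0, ENNReal.ofReal (cv v) ≠ ⊤)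
    (hcw : ∫⁻ v in Ico (-(2 * R)) 0, ENNReal.ofReal (cw v) ≠ ⊤)
    (hcu' : ∫⁻ u in Icc (-(2 * R)) (2 * R), ENNReal.ofReal (cu u) ≠ ⊤)
    (hcu : ∀ u, cu u ≤ C) {P : ℝ} (hP : 0 ≤ P)
    (hosc : ∀ v y y', ins v y ∈ U → ins v y' ∈ U →
      |fderiv ℝ K.g11 (ins v y) (e4 K (ins v y)) - fderiv ℝ K.g11 (ins v y') (e4 K (ins v y'))| ≤
        P * ‖y - y'‖ * cv v + P ∧
      |fderiv ℝ K.g12 (ins v y) (e4 K (ins v y)) - fderiv ℝ K.g12 (ins v y') (e4 K (ins v y'))| ≤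
        P * ‖y - y'‖ * cv v + P ∧
      |fderiv ℝ K.g22 (ins v y) (e4 K (ins v y)) - fderiv ℝ K.g22 (ins v y') (e4 K (ins v y'))| ≤
        P * ‖y - y'‖ * cv v + P) {O : Set P3} (hO : IsOpen O) {v0 : ℝ} (hv0 : v0 < 0)
    (hin : ∀ y ∈ O, ∀ v ∈ Ico v0 0, ∃ z ∈ DD t0 r f, Psi z = ins v y ∧ ‖z.2‖ ≤ r / 4) :
    ∃ v1 ∈ Ico v0 0, ∀ᵐ y0 : P3, y0 ∈ O →
      ∫⁻ v in Ico v1 0, ENNReal.ofReal (chi4 K (ins v y0)) ^ 2 ≠ ⊤ := by
  obtain ⟨v1, hv1, hcore⟩ := open_core h hw hcv hcw hcu' hcu hO hv0 hin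
  refine ⟨v1, hv1, ?_⟩
  filter_upwards [hcore] with y0 hc hy0
  have hB := hc hy0
  have himg : ∀ v ∈ Ico v1 0, ins v y0 ∈ Psi '' DD t0 r f := by
    intro v hv
    obtain ⟨z, hz, hzy, _⟩ := hin y0 hy0 v ⟨hv1.1.trans hv.1, hv.2⟩
    exact ⟨z, hz, hzy⟩
  obtain ⟨B, hBint, hBest⟩ := hB 4 1 (by norm_num) (by norm_num)
  have hRv : -R ≤ v1 := by
    obtain ⟨z, hz, hzy⟩ := himg v1 ⟨le_refl _, hv1.2⟩
    have := (h.U_sub _ (h.maps (h.DD_sub hz))).2.1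
    rw [hzy] at this
    exact this
  have hUi : ∀ x, x ∈ Psi '' DD t0 r f → x ∈ U := by
    rintro _ ⟨z, hz, rfl⟩
    exact h.maps (h.DD_sub hz)
  have hpt : ∀ v ∈ Ico v1 0, ENNReal.ofReal (chi4 K (ins v y0)) ≤
      7 * B v + ENNReal.ofReal ((56 * P) * Real.sqrt (1 + max (cv v) 0)) := by
    intro v hv
    have hyU := hUi _ (himg v hv)
    have hcv0 : 0 ≤ cv v := (h.bd _ hyU).cv0
    have hmax : max (cv v) 0 = cv v := max_eq_left hcv0
    set s := Real.sqrt (1 + max (cv v) 0) with hs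
    have hs1 : 1 ≤ s := one_le_rt cv v
    have hs2 : s ^ 2 = 1 + cv v := by rw [hs, hmax, Real.sq_sqrt (by linarith)]
    set w := 2 * P * s with hwd
    have hw0 : 0 ≤ w := by positivity
    have hω : ∀ y : P3, cv v * ‖y - y0‖ ^ 2 < 1 → P * ‖y - y0‖ * cv v + P ≤ w := by
      intro y hy
      have h1 : ‖y - y0‖ * cv v ≤ s := by
        apply le_of_sq_le_sq _ (by linarith only [hs1])
        calc (‖y - y0‖ * cv v) ^ 2 = (cv v * ‖y - y0‖ ^ 2) * cv v := by ring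
          _ ≤ 1 * cv v := by gcongr
          _ ≤ s ^ 2 := by linarith only [hs2]
      calc P * ‖y - y0‖ * cv v + P = P * (‖y - y0‖ * cv v + 1) := by ring
        _ ≤ P * (s + s) := by gcongr
        _ = w := by rw [hwd]; ring
    rcases le_total (8 * w) (max |fderiv ℝ K.g11 (ins v y0) (e4 K (ins v y0))|
        (max |fderiv ℝ K.g22 (ins v y0) (e4 K (ins v y0))|
          |fderiv ℝ K.g11 (ins v y0) (e4 K (ins v y0)) +
            2 * fderiv ℝ K.g12 (ins v y0) (e4 K (ins v y0)) +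
            fderiv ℝ K.g22 (ins v y0) (e4 K (ins v y0))|)) with hc | hc
    · obtain ⟨j, σ, γ, hσ, hγ, hsum, hdir⟩ := choose_dir hw0 hc
      have h1 := hBest v hv j σ γ hσ hγ (by
        intro y _ hy2 hyi
        have hyU' := hUi _ hyi
        obtain ⟨o1, o2, o3⟩ := hosc v y y0 hyU' hyU
        have hwy := hω y hy2
        have := hdir _ _ _ (o1.trans hwy) (o2.trans hwy) (o3.trans hwy)
        rw [D3_eq]
        exact this)
      calc ENNReal.ofReal (chi4 K (ins v y0)) ≤ ENNReal.ofReal (7 * γ) := by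
            apply ENNReal.ofReal_le_ofReal
            exact hsum
        _ = 7 * ENNReal.ofReal γ := by
            rw [ENNReal.ofReal_mul (by norm_num)]; norm_num
        _ ≤ 7 * B v := by gcongr
        _ ≤ _ := le_self_add
    · have hle : chi4 K (ins v y0) ≤ (56 * P) * s := by
        unfold chi4
        generalize fderiv ℝ K.g11 (ins v y0) (e4 K (ins v y0)) = d11 at *
        generalize fderiv ℝ K.g12 (ins v y0) (e4 K (ins v y0)) = d12 at *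
        generalize fderiv ℝ K.g22 (ins v y0) (e4 K (ins v y0)) = d22 at *
        have h1 : |d11| ≤ 8 * w := (le_max_left _ _).trans hc
        have h2 : |d22| ≤ 8 * w := ((le_max_left _ _).trans (le_max_right _ _)).trans hc
        have h3 : |d11 + 2 * d12 + d22| ≤ 8 * w :=
          ((le_max_right _ _).trans (le_max_right _ _)).trans hc
        have h4 : |d12| ≤ 12 * w := by
          rw [abs_le] at *
          constructor <;> linarith only [h1, h2, h3]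
        have : 56 * P * s = 28 * w := by rw [hwd]; ring
        linarith only [h1, h2, h4]
      calc ENNReal.ofReal (chi4 K (ins v y0)) ≤ ENNReal.ofReal ((56 * P) * s) :=
            ENNReal.ofReal_le_ofReal hle
        _ ≤ _ := le_add_self
  have hfin : ∫⁻ v in Ico v1 0, 4 * ((7 * B v) ^ 2 +
      ENNReal.ofReal ((56 * P) * Real.sqrt (1 + max (cv v) 0)) ^ 2) ≠ ⊤ := by
    rw [lintegral_const_mul' _ _ (by norm_num), lintegral_add_right]
    · apply ENNReal.mul_ne_top (by norm_num)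
      apply ENNReal.add_ne_top.mpr
      refine ⟨?_, lintegral_rt h.toPreHyp hRv _⟩
      simp only [mul_pow]
      rw [lintegral_const_mul' _ _ (by norm_num)]
      exact ENNReal.mul_ne_top (by norm_num) hBint
    · have := h.cv_meas
      fun_prop
  refine ne_top_of_le_ne_top hfin ?_
  apply setLIntegral_mono' measurableSet_Ico
  intro v hv
  refine (ENNReal.pow_le_pow_left (hpt v hv)).trans (add_sq_le4 _ _)

end Vale.Agent.P354z
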